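import Vale.Agent.Lib.P262.Defs

open scoped ENNReal

namespace Vale.Agent.Lib.P262

variable {E : Type*} [NormedAddCommGroup E] [InnerProductSpace ℝ E]

/-- conversion of a filtered sum over `Fin N` to a sum over `range k`. -/
theorem sum_fin_filter_eq {M : Type*} [AddCommMonoid M] (N k : ℕ) (hk : k ≤ N) (f : ℕ → M) :
    ∑ i ∈ Finset.univ.filter (fun i : Fin N => i.val < k), f i.val = ∑ j ∈ Finset.range k, f j := by
  rw [Finset.sum_filter]
  rw [Fin.sum_univ_eq_sum_range (fun j => if j < k then f j else 0) N]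
  rw [← Finset.sum_filter]
  congr 1
  ext j
  simp only [Finset.mem_filter, Finset.mem_range]
  omega

theorem le_sigma_of_forcing {d : ℕ} {R : ℝ} (N : ℕ) (v : Fin N → EuclideanSpace ℝ (Fin d))
    (hv : ∀ i, ‖v i‖ ≤ 1)
    (h : ∀ ε : Fin N → ℝ, (∀ i, ε i = 1 ∨ ε i = -1) →
      ∃ k : Fin (N + 1), R ≤ ‖∑ i ∈ Finset.univ.filter (fun i : Fin N => i.val < k.val), ε i • v i‖) :
    ENNReal.ofReal R ≤ sigma d := by
  unfold sigma sigmaN
  refine le_iSup_of_le N (le_iSup_of_le v (le_iSup_of_le hv ?_))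
  refine le_iInf (fun ε => le_iInf (fun hε => ?_))
  obtain ⟨k, hk⟩ := h ε hε
  refine le_iSup_of_le k ?_
  rw [← ofReal_norm]
  exact ENNReal.ofReal_le_ofReal hk

theorem sigma_le_of_balancing {d : ℕ} {R : ℝ}
    (h : ∀ (N : ℕ) (v : Fin N → EuclideanSpace ℝ (Fin d)), (∀ i, ‖v i‖ ≤ 1) →
      ∃ ε : Fin N → ℝ, (∀ i, ε i = 1 ∨ ε i = -1) ∧
        ∀ k : Fin (N + 1), ‖∑ i ∈ Finset.univ.filter (fun i : Fin N => i.val < k.val), ε i • v i‖ ≤ R) :
    sigma d ≤ ENNReal.ofReal R := by
  unfold sigma sigmaN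
  refine iSup_le (fun N => iSup_le (fun v => iSup_le (fun hv => ?_)))
  obtain ⟨ε, hε, hk⟩ := h N v hv
  refine iInf_le_of_le ε (iInf_le_of_le hε (iSup_le (fun k => ?_)))
  rw [← ofReal_norm]
  exact ENNReal.ofReal_le_ofReal (hk k)

/-- `Dead T s L`: starting from position `s`, every signing of the list `L` reaches squared norm at
least `T` at some time. -/
def Dead (T : ℝ) : E → List E → Prop
  | s, [] => T ≤ ‖s‖ ^ 2
  | s, v :: L => T ≤ ‖s‖ ^ 2 ∨ (Dead T (s + v) L ∧ Dead T (s - v) L)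

theorem dead_signs (T : ℝ) (L : List E) : ∀ (s : E) (ε : ℕ → ℝ), (∀ i, ε i = 1 ∨ ε i = -1) →
    Dead T s L → ∃ k, k ≤ L.length ∧ T ≤ ‖s + ∑ i ∈ Finset.range k, ε i • L.getD i 0‖ ^ 2 := by
  induction L with
  | nil =>
    intro s ε _ h
    exact ⟨0, le_refl _, by simpa [Dead] using h⟩
  | cons v L ih =>
    intro s ε hε h
    rcases h with h | ⟨h1, h2⟩
    · exact ⟨0, Nat.zero_le _, by simpa using h⟩
    · rcases hε 0 with h0 | h0
      · obtain ⟨k, hk, hT⟩ := ih (s + v) (fun i => ε (i + 1)) (fun i => hε (i + 1)) h1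
        refine ⟨k + 1, by simpa using hk, ?_⟩
        rw [Finset.sum_range_succ']
        simp only [List.getD_cons_succ, List.getD_cons_zero, h0, one_smul]
        convert hT using 3
        abel
      · obtain ⟨k, hk, hT⟩ := ih (s - v) (fun i => ε (i + 1)) (fun i => hε (i + 1)) h2
        refine ⟨k + 1, by simpa using hk, ?_⟩
        rw [Finset.sum_range_succ']
        simp only [List.getD_cons_succ, List.getD_cons_zero, h0, neg_smul, one_smul]
        convert hT using 3
        abel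

theorem dead_orth_lift (T : ℝ) (z : E) (L : List E) : ∀ s : E, inner ℝ z s = 0 →
    (∀ v ∈ L, inner ℝ z v = 0) → Dead T s L → Dead (T + ‖z‖ ^ 2) (z + s) L := by
  induction L with
  | nil =>
    intro s hs _ h
    simp only [Dead] at h ⊢
    rw [norm_add_sq_real, hs]
    linarith
  | cons v L ih =>
    intro s hs hL h
    have hv : inner ℝ z v = 0 := hL v (by simp)
    have hL' : ∀ w ∈ L, inner ℝ z w = 0 := fun w hw => hL w (by simp [hw])
    rcases h with h | ⟨h1, h2⟩
    · left
      rw [norm_add_sq_real, hs]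
      linarith
    · right
      constructor
      · have := ih (s + v) (by rw [inner_add_right, hs, hv, add_zero]) hL' h1
        rwa [← add_assoc] at this
      · have := ih (s - v) (by rw [inner_sub_right, hs, hv, sub_zero]) hL' h2
        rwa [← add_sub_assoc] at this

end Vale.Agent.Lib.P262
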