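import Mathlib

open scoped ENNReal

namespace Vale.Agent.Lib.P262

/-- `sigmaN d N`: supremum over `v_1,...,v_N` in the Euclidean unit ball of `ℝ^d` of the minimum over
signs of the maximum over `0 ≤ k ≤ N` of the norm of the `k`-th signed initial sum. -/
noncomputable def sigmaN (d N : ℕ) : ℝ≥0∞ :=
  ⨆ (v : Fin N → EuclideanSpace ℝ (Fin d)) (_ : ∀ i, ‖v i‖ ≤ 1),
    ⨅ (ε : Fin N → ℝ) (_ : ∀ i, ε i = 1 ∨ ε i = -1),
      ⨆ k : Fin (N + 1), ‖∑ i ∈ Finset.univ.filter (fun i : Fin N => i.val < k.val), ε i • v i‖ₑ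

/-- `sigma d = sup_N sigmaN d N`. -/
noncomputable def sigma (d : ℕ) : ℝ≥0∞ := ⨆ N : ℕ, sigmaN d N

end Vale.Agent.Lib.P262
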