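import Vale.Agent.Lib.P262.Basic

open scoped ENNReal

namespace Vale.Agent.Lib.P262

variable {E : Type*} [NormedAddCommGroup E] [InnerProductSpace ℝ E]

theorem dead_of_le (T : ℝ) (s : E) (L : List E) (h : T ≤ ‖s‖ ^ 2) : Dead T s L := by
  cases L with
  | nil => exact h
  | cons v L => exact Or.inl h

theorem dead_neg (T : ℝ) (L : List E) : ∀ s : E, Dead T s L → Dead T (-s) L := by
  induction L with
  | nil =>
    intro s h
    simpa [Dead] using h
  | cons v L ih =>
    intro s h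
    rcases h with h | ⟨h1, h2⟩
    · left; simpa using h
    · right
      constructor
      · have := ih _ h2
        rwa [neg_sub, sub_eq_neg_add] at this
      · have := ih _ h1
        rwa [neg_add, ← sub_eq_add_neg] at this

theorem exists_unit_with_inner (x y c : ℝ) (ha : 0 < x ^ 2 + y ^ 2) (hc : c ^ 2 ≤ x ^ 2 + y ^ 2) :
    ∃ p q : ℝ, p ^ 2 + q ^ 2 = 1 ∧ x * p + y * q = c := by
  set a := x ^ 2 + y ^ 2 with ha_def
  set r := Real.sqrt (a - c ^ 2) with hr_def
  have hr : r ^ 2 = a - c ^ 2 := Real.sq_sqrt (by linarith)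
  have ha' : a ≠ 0 := ne_of_gt ha
  refine ⟨(c * x - y * r) / a, (c * y + x * r) / a, ?_, ?_⟩
  · rw [div_pow, div_pow, ← add_div, div_eq_one_iff_eq (pow_ne_zero 2 ha')]
    have : (c * x - y * r) ^ 2 + (c * y + x * r) ^ 2 = (c ^ 2 + r ^ 2) * (x ^ 2 + y ^ 2) := by ring
    rw [this, hr, ← ha_def]
    ring
  · have : x * ((c * x - y * r) / a) + y * ((c * y + x * r) / a) = c * (x ^ 2 + y ^ 2) / a := by
      field_simp
      ring
    rw [this, ← ha_def]
    field_simp

theorem norm_sq_comb (w1 w2 : E) (h1 : ‖w1‖ = 1) (h2 : ‖w2‖ = 1) (h12 : inner ℝ w1 w2 = 0)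
    (x y : ℝ) : ‖x • w1 + y • w2‖ ^ 2 = x ^ 2 + y ^ 2 := by
  rw [norm_add_sq_real, norm_smul, norm_smul, inner_smul_left, inner_smul_right, h12, h1, h2]
  simp [sq_abs]

theorem planar_kill (w1 w2 : E) (h1 : ‖w1‖ = 1) (h2 : ‖w2‖ = 1) (h12 : inner ℝ w1 w2 = 0)
    (T : ℝ) (hT2 : 2 ≤ T) (hT3 : T < 3) : ∀ (n : ℕ) (x y : ℝ), 1 ≤ x ^ 2 + y ^ 2 →
    T - 2 + (1 / 2 : ℝ) ^ n ≤ x ^ 2 + y ^ 2 →
    ∃ L : List E, (∀ v ∈ L, ∃ p q : ℝ, p ^ 2 + q ^ 2 = 1 ∧ v = p • w1 + q • w2) ∧
      Dead T (x • w1 + y • w2) L := by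
  have base : ∀ x y : ℝ, 1 ≤ x ^ 2 + y ^ 2 → T - 1 ≤ x ^ 2 + y ^ 2 →
      ∃ L : List E, (∀ v ∈ L, ∃ p q : ℝ, p ^ 2 + q ^ 2 = 1 ∧ v = p • w1 + q • w2) ∧
        Dead T (x • w1 + y • w2) L := by
    intro x y ha hb
    obtain ⟨p, q, hpq, hin⟩ := exists_unit_with_inner x y 0 (by linarith) (by nlinarith)
    refine ⟨[p • w1 + q • w2], ?_, ?_⟩
    · intro v hv
      simp only [List.mem_singleton] at hv
      exact ⟨p, q, hpq, hv⟩
    · right
      constructor
      · show T ≤ ‖x • w1 + y • w2 + (p • w1 + q • w2)‖ ^ 2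
        have : x • w1 + y • w2 + (p • w1 + q • w2) = (x + p) • w1 + (y + q) • w2 := by
          simp only [add_smul]; abel
        rw [this, norm_sq_comb w1 w2 h1 h2 h12]
        nlinarith
      · show T ≤ ‖x • w1 + y • w2 - (p • w1 + q • w2)‖ ^ 2
        have : x • w1 + y • w2 - (p • w1 + q • w2) = (x - p) • w1 + (y - q) • w2 := by
          simp only [sub_smul]; abel
        rw [this, norm_sq_comb w1 w2 h1 h2 h12]
        nlinarith
  intro n
  induction n with
  | zero =>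
    intro x y ha hb
    rw [pow_zero] at hb
    exact base x y ha (by linarith)
  | succ n ih =>
    intro x y ha hb
    by_cases hcase : T - 1 ≤ x ^ 2 + y ^ 2
    · exact base x y ha hcase
    · rw [not_le] at hcase
      set a := x ^ 2 + y ^ 2 with ha_def
      have hpos : (0 : ℝ) < (1 / 2 : ℝ) ^ (n + 1) := by positivity
      obtain ⟨p, q, hpq, hin⟩ := exists_unit_with_inner x y ((T - a - 1) / 2) (by linarith)
        (by rw [← ha_def]; nlinarith)
      have e1 : x • w1 + y • w2 + (p • w1 + q • w2) = (x + p) • w1 + (y + q) • w2 := by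
        simp only [add_smul]; abel
      have e2 : x • w1 + y • w2 - (p • w1 + q • w2) = (x - p) • w1 + (y - q) • w2 := by
        simp only [sub_smul]; abel
      have n2 : (x - p) ^ 2 + (y - q) ^ 2 = 2 * a + 2 - T := by
        have : (x - p) ^ 2 + (y - q) ^ 2 = (x ^ 2 + y ^ 2) + (p ^ 2 + q ^ 2) - 2 * (x * p + y * q) := by
          ring
        rw [this, hpq, hin, ← ha_def]; ring
      have n1 : (x + p) ^ 2 + (y + q) ^ 2 = T := by
        have : (x + p) ^ 2 + (y + q) ^ 2 = (x ^ 2 + y ^ 2) + (p ^ 2 + q ^ 2) + 2 * (x * p + y * q) := by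
          ring
        rw [this, hpq, hin, ← ha_def]; ring
      have hpow : (1 / 2 : ℝ) ^ (n + 1) = (1 / 2 : ℝ) ^ n / 2 := by
        rw [pow_succ]; ring
      obtain ⟨L, hL, hD⟩ := ih (x - p) (y - q) (by rw [n2]; linarith) (by rw [n2]; linarith)
      refine ⟨(p • w1 + q • w2) :: L, ?_, ?_⟩
      · intro v hv
        rcases List.mem_cons.mp hv with rfl | hv
        · exact ⟨p, q, hpq, rfl⟩
        · exact hL v hv
      · right
        constructor
        · apply dead_of_le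
          rw [e1, norm_sq_comb w1 w2 h1 h2 h12, n1]
        · rw [e2]; exact hD

end Vale.Agent.Lib.P262
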