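import Vale.Agent.Lib.P262.Lower

open scoped ENNReal

namespace Vale.Agent.Lib.P262

theorem lower_abstract (T : ℝ) (hT2 : 2 ≤ T) (hT3 : T < 3) : ∀ (m : ℕ) {E : Type}
    [NormedAddCommGroup E] [InnerProductSpace ℝ E] (w : Fin (m + 2) → E), Orthonormal ℝ w →
    ∃ L : List E, (∀ v ∈ L, ‖v‖ ≤ 1) ∧
      (∀ v ∈ L, ∀ z : E, (∀ i, inner ℝ z (w i) = 0) → inner ℝ z v = 0) ∧
      Dead (T + m) 0 L := by
  intro m
  induction m with
  | zero =>
    intro E _ _ w hw
    have h1 : ‖w 0‖ = 1 := hw.1 0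
    have h2 : ‖w 1‖ = 1 := hw.1 1
    have h12 : inner ℝ (w 0) (w 1) = 0 := hw.2 (by decide)
    obtain ⟨n, hn⟩ := exists_pow_lt_of_lt_one (show (0 : ℝ) < 3 - T by linarith)
      (show (1 / 2 : ℝ) < 1 by norm_num)
    obtain ⟨L, hL, hD⟩ := planar_kill (w 0) (w 1) h1 h2 h12 T hT2 hT3 n 1 0 (by norm_num)
      (by norm_num; linarith)
    have hD' : Dead T (w 0) L := by simpa using hD
    refine ⟨w 0 :: L, ?_, ?_, ?_⟩
    · intro v hv
      rcases List.mem_cons.mp hv with rfl | hv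
      · exact le_of_eq h1
      · obtain ⟨p, q, hpq, rfl⟩ := hL v hv
        have := norm_sq_comb (w 0) (w 1) h1 h2 h12 p q
        rw [hpq] at this
        nlinarith [norm_nonneg (p • w 0 + q • w 1)]
    · intro v hv z hz
      rcases List.mem_cons.mp hv with rfl | hv
      · exact hz 0
      · obtain ⟨p, q, _, rfl⟩ := hL v hv
        rw [inner_add_right, inner_smul_right, inner_smul_right, hz 0, hz 1]
        simp
    · right
      simp only [Nat.cast_zero, add_zero, zero_add, zero_sub]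
      exact ⟨hD', dead_neg T L _ hD'⟩
  | succ m ih =>
    intro E _ _ w hw
    have hw' : Orthonormal ℝ (w ∘ Fin.succ) := hw.comp Fin.succ (Fin.succ_injective _)
    obtain ⟨L, hL1, hL2, hD⟩ := ih (w ∘ Fin.succ) hw'
    have h0 : ‖w 0‖ = 1 := hw.1 0
    have horth : ∀ v ∈ L, inner ℝ (w 0) v = 0 := by
      intro v hv
      apply hL2 v hv
      intro i
      exact hw.2 (Fin.succ_ne_zero i).symm
    have key : Dead (T + ((m + 1 : ℕ) : ℝ)) (w 0) L := by
      have := dead_orth_lift (T + m) (w 0) L 0 (by simp) horth hD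
      rw [h0, add_zero] at this
      convert this using 1
      push_cast
      ring
    refine ⟨w 0 :: L, ?_, ?_, ?_⟩
    · intro v hv
      rcases List.mem_cons.mp hv with rfl | hv
      · exact le_of_eq h0
      · exact hL1 v hv
    · intro v hv z hz
      rcases List.mem_cons.mp hv with rfl | hv
      · exact hz 0
      · exact hL2 v hv z (fun i => hz i.succ)
    · right
      simp only [zero_add, zero_sub]
      exact ⟨key, dead_neg _ L _ key⟩

/-- Explicit form of the lower bound. -/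
theorem forcing (m : ℕ) (R : ℝ) (hR0 : 0 ≤ R) (hR : R ^ 2 < (m : ℝ) + 3) :
    ∃ (N : ℕ) (v : Fin N → EuclideanSpace ℝ (Fin (m + 2))), (∀ i, ‖v i‖ ≤ 1) ∧
      ∀ ε : Fin N → ℝ, (∀ i, ε i = 1 ∨ ε i = -1) →
        ∃ k : Fin (N + 1), R ≤ ‖∑ i ∈ Finset.univ.filter (fun i : Fin N => i.val < k.val), ε i • v i‖ := by
  set T : ℝ := max 2 (R ^ 2 - m) with hT
  have hT2 : 2 ≤ T := le_max_left _ _
  have hT3 : T < 3 := max_lt (by norm_num) (by linarith)
  have hTR : R ^ 2 ≤ T + m := by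
    have := le_max_right 2 (R ^ 2 - (m : ℝ))
    linarith
  obtain ⟨L, hL1, _, hD⟩ := lower_abstract T hT2 hT3 m
    (EuclideanSpace.basisFun (Fin (m + 2)) ℝ) (EuclideanSpace.basisFun (Fin (m + 2)) ℝ).orthonormal
  refine ⟨L.length, fun i => L.getD i.val 0, ?_, ?_⟩
  · intro i
    show ‖L.getD i.val 0‖ ≤ 1
    rw [List.getD_eq_getElem L 0 i.isLt]
    exact hL1 _ (List.getElem_mem _)
  · intro ε hε
    set ε' : ℕ → ℝ := fun j => if h : j < L.length then ε ⟨j, h⟩ else 1 with hε'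
    have hε'' : ∀ j, ε' j = 1 ∨ ε' j = -1 := by
      intro j
      simp only [hε']
      split_ifs with h
      · exact hε _
      · exact Or.inl rfl
    obtain ⟨k, hk, hTk⟩ := dead_signs (T + m) L 0 ε' hε'' hD
    refine ⟨⟨k, Nat.lt_succ_of_le hk⟩, ?_⟩
    have hsum : ∑ i ∈ Finset.univ.filter (fun i : Fin L.length => i.val < k), ε i • L.getD i.val 0
        = ∑ j ∈ Finset.range k, ε' j • L.getD j 0 := by
      rw [← sum_fin_filter_eq L.length k hk (fun j => ε' j • L.getD j 0)]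
      apply Finset.sum_congr rfl
      intro i _
      simp [hε']
    simp only
    rw [hsum]
    rw [zero_add] at hTk
    have : R ^ 2 ≤ ‖∑ j ∈ Finset.range k, ε' j • L.getD j 0‖ ^ 2 := le_trans hTR hTk
    exact (pow_le_pow_iff_left₀ hR0 (norm_nonneg _) (by norm_num)).mp this

theorem sqrt_le_sigma (d : ℕ) (hd : 2 ≤ d) : ENNReal.ofReal (Real.sqrt (d + 1)) ≤ sigma d := by
  obtain ⟨m, rfl⟩ : ∃ m, d = m + 2 := ⟨d - 2, by omega⟩
  apply le_of_forall_lt_imp_le_of_dense
  intro c hc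
  have hctop : c ≠ ∞ := ne_top_of_lt hc
  rw [ENNReal.lt_ofReal_iff_toReal_lt hctop] at hc
  have hc0 : 0 ≤ c.toReal := ENNReal.toReal_nonneg
  have hsq : c.toReal ^ 2 < (m : ℝ) + 3 := by
    have h1 : c.toReal ^ 2 < Real.sqrt (((m + 2 : ℕ) : ℝ) + 1) ^ 2 := by
      apply pow_lt_pow_left₀ hc hc0 (by norm_num)
    rw [Real.sq_sqrt (by positivity)] at h1
    push_cast at h1
    linarith
  obtain ⟨N, v, hv, hf⟩ := forcing m c.toReal hc0 hsq
  have := le_sigma_of_forcing N v hv hf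
  rwa [ENNReal.ofReal_toReal hctop] at this

end Vale.Agent.Lib.P262
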