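import Vale.Agent.Lib.P262.Lower2

open scoped ENNReal

namespace Vale.Agent.Lib.P262

/-- `Forcible k T`: in the span of any orthonormal family of size `k` there is a finite list of
vectors of the unit ball all of whose signings reach squared norm at least `T`. -/
def Forcible (k : ℕ) (T : ℝ) : Prop :=
  ∀ (E : Type) [NormedAddCommGroup E] [InnerProductSpace ℝ E] (w : Fin k → E), Orthonormal ℝ w →
    ∃ L : List E, (∀ v ∈ L, ‖v‖ ≤ 1) ∧
      (∀ v ∈ L, ∀ z : E, (∀ i, inner ℝ z (w i) = 0) → inner ℝ z v = 0) ∧ Dead T 0 L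

theorem Forcible.succ {k : ℕ} {T : ℝ} (h : Forcible k T) : Forcible (k + 1) (T + 1) := by
  intro E _ _ w hw
  have hw' : Orthonormal ℝ (w ∘ Fin.succ) := hw.comp Fin.succ (Fin.succ_injective _)
  obtain ⟨L, hL1, hL2, hD⟩ := h E (w ∘ Fin.succ) hw'
  have h0 : ‖w 0‖ = 1 := hw.1 0
  have horth : ∀ v ∈ L, inner ℝ (w 0) v = 0 := by
    intro v hv
    apply hL2 v hv
    intro i
    exact hw.2 (Fin.succ_ne_zero i).symm
  have key : Dead (T + 1) (w 0) L := by
    have := dead_orth_lift T (w 0) L 0 (by simp) horth hD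
    rw [h0, add_zero] at this
    simpa using this
  refine ⟨w 0 :: L, ?_, ?_, ?_⟩
  · intro v hv
    rcases List.mem_cons.mp hv with rfl | hv
    · exact le_of_eq h0
    · exact hL1 v hv
  · intro v hv z hz
    rcases List.mem_cons.mp hv with rfl | hv
    · exact hz 0
    · exact hL2 v hv z (fun i => hz i.succ)
  · right
    simp only [zero_add, zero_sub]
    exact ⟨key, dead_neg _ L _ key⟩

theorem Forcible.add {k : ℕ} {T : ℝ} (h : Forcible k T) (m : ℕ) : Forcible (k + m) (T + m) := by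
  induction m with
  | zero => simpa using h
  | succ m ih =>
    have := ih.succ
    rw [← add_assoc]
    convert this using 1
    push_cast
    ring

theorem Forcible.le_sigma {d : ℕ} {T : ℝ} (h : Forcible d T) :
    ENNReal.ofReal (Real.sqrt T) ≤ sigma d := by
  obtain ⟨L, hL1, _, hD⟩ := h _
    (EuclideanSpace.basisFun (Fin d) ℝ) (EuclideanSpace.basisFun (Fin d) ℝ).orthonormal
  apply le_sigma_of_forcing L.length (fun i => L.getD i.val 0)
  · intro i
    show ‖L.getD i.val 0‖ ≤ 1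
    rw [List.getD_eq_getElem L 0 i.isLt]
    exact hL1 _ (List.getElem_mem _)
  · intro ε hε
    set ε' : ℕ → ℝ := fun j => if h : j < L.length then ε ⟨j, h⟩ else 1 with hε'
    have hε'' : ∀ j, ε' j = 1 ∨ ε' j = -1 := by
      intro j
      simp only [hε']
      split_ifs with h
      · exact hε _
      · exact Or.inl rfl
    obtain ⟨k, hk, hTk⟩ := dead_signs T L 0 ε' hε'' hD
    refine ⟨⟨k, Nat.lt_succ_of_le hk⟩, ?_⟩
    have hsum : ∑ i ∈ Finset.univ.filter (fun i : Fin L.length => i.val < k), ε i • L.getD i.val 0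
        = ∑ j ∈ Finset.range k, ε' j • L.getD j 0 := by
      rw [← sum_fin_filter_eq L.length k hk (fun j => ε' j • L.getD j 0)]
      apply Finset.sum_congr rfl
      intro i _
      simp [hε']
    simp only
    rw [hsum]
    rw [zero_add] at hTk
    exact Real.sqrt_le_iff.2 ⟨norm_nonneg _, hTk⟩

/-- Integer triples. -/
abbrev Z3 := ℤ × ℤ × ℤ

def nsq (s : Z3) : ℤ := s.1 * s.1 + s.2.1 * s.2.1 + s.2.2 * s.2.2

def addZ (s v : Z3) : Z3 := (s.1 + v.1, s.2.1 + v.2.1, s.2.2 + v.2.2)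
def subZ (s v : Z3) : Z3 := (s.1 - v.1, s.2.1 - v.2.1, s.2.2 - v.2.2)

/-- Computable check that every signing of the integer list `L`, started from `s`, reaches squared
norm at least `T`. -/
def deadZ (T : ℤ) : Z3 → List Z3 → Bool
  | s, [] => decide (T ≤ nsq s)
  | s, v :: L => decide (T ≤ nsq s) || (deadZ T (addZ s v) L && deadZ T (subZ s v) L)

section emb
variable {E : Type*} [NormedAddCommGroup E] [InnerProductSpace ℝ E]

/-- Embedding of integer triples, scaled by `1/D`, in the span of `w0, w1, w2`. -/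
noncomputable def emb (D : ℝ) (w0 w1 w2 : E) (s : Z3) : E :=
  ((s.1 : ℝ) / D) • w0 + ((s.2.1 : ℝ) / D) • w1 + ((s.2.2 : ℝ) / D) • w2

theorem emb_add (D : ℝ) (w0 w1 w2 : E) (s v : Z3) :
    emb D w0 w1 w2 (addZ s v) = emb D w0 w1 w2 s + emb D w0 w1 w2 v := by
  simp only [emb, addZ, Int.cast_add, add_div]
  module

theorem emb_sub (D : ℝ) (w0 w1 w2 : E) (s v : Z3) :
    emb D w0 w1 w2 (subZ s v) = emb D w0 w1 w2 s - emb D w0 w1 w2 v := by
  simp only [emb, subZ, Int.cast_sub, sub_div]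
  module

theorem norm_emb (D : ℝ) (w0 w1 w2 : E) (h0 : ‖w0‖ = 1) (h1 : ‖w1‖ = 1) (h2 : ‖w2‖ = 1)
    (h01 : inner ℝ w0 w1 = 0) (h02 : inner ℝ w0 w2 = 0) (h12 : inner ℝ w1 w2 = 0) (s : Z3) :
    ‖emb D w0 w1 w2 s‖ ^ 2 = (nsq s : ℝ) / D ^ 2 := by
  rw [emb, norm_add_sq_real, norm_add_sq_real, inner_add_left]
  simp only [inner_smul_left, inner_smul_right, norm_smul, mul_pow, Real.norm_eq_abs, sq_abs,
    conj_trivial, h0, h1, h2, h01, h02, h12, nsq]
  push_cast
  ring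

theorem dead_of_deadZ (D : ℝ) (hD : 0 < D) (w0 w1 w2 : E) (h0 : ‖w0‖ = 1) (h1 : ‖w1‖ = 1)
    (h2 : ‖w2‖ = 1) (h01 : inner ℝ w0 w1 = 0) (h02 : inner ℝ w0 w2 = 0)
    (h12 : inner ℝ w1 w2 = 0) (T : ℤ) (L : List Z3) : ∀ s : Z3, deadZ T s L = true →
    Dead ((T : ℝ) / D ^ 2) (emb D w0 w1 w2 s) (L.map (emb D w0 w1 w2)) := by
  have hle : ∀ s : Z3, T ≤ nsq s → (T : ℝ) / D ^ 2 ≤ ‖emb D w0 w1 w2 s‖ ^ 2 := by
    intro s hs
    rw [norm_emb D w0 w1 w2 h0 h1 h2 h01 h02 h12]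
    have : (T : ℝ) ≤ (nsq s : ℝ) := by exact_mod_cast hs
    gcongr
  induction L with
  | nil =>
    intro s h
    simp only [deadZ, decide_eq_true_eq] at h
    exact hle s h
  | cons v L ih =>
    intro s h
    simp only [deadZ, Bool.or_eq_true, decide_eq_true_eq, Bool.and_eq_true] at h
    rcases h with h | ⟨ha, hb⟩
    · exact Or.inl (hle s h)
    · refine Or.inr ⟨?_, ?_⟩
      · rw [← emb_add]; exact ih _ ha
      · rw [← emb_sub]; exact ih _ hb

end emb

/-- A certified integer configuration gives forcibility in dimension three. -/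
theorem forcible_three_of_cert (D : ℤ) (hD : 0 < D) (T : ℤ) (L : List Z3)
    (hL : ∀ v ∈ L, nsq v ≤ D * D) (hcert : deadZ T (0, 0, 0) L = true) :
    Forcible 3 ((T : ℝ) / (D : ℝ) ^ 2) := by
  intro E _ _ w hw
  have hD' : (0 : ℝ) < D := by exact_mod_cast hD
  have h0 : ‖w 0‖ = 1 := hw.1 0
  have h1 : ‖w 1‖ = 1 := hw.1 1
  have h2 : ‖w 2‖ = 1 := hw.1 2
  have h01 : inner ℝ (w 0) (w 1) = 0 := hw.2 (by decide)
  have h02 : inner ℝ (w 0) (w 2) = 0 := hw.2 (by decide)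
  have h12 : inner ℝ (w 1) (w 2) = 0 := hw.2 (by decide)
  refine ⟨L.map (emb D (w 0) (w 1) (w 2)), ?_, ?_, ?_⟩
  · intro v hv
    obtain ⟨s, hs, rfl⟩ := List.mem_map.1 hv
    have hn := norm_emb (D : ℝ) (w 0) (w 1) (w 2) h0 h1 h2 h01 h02 h12 s
    have : (nsq s : ℝ) ≤ (D : ℝ) ^ 2 := by
      have := hL s hs
      rw [sq]
      exact_mod_cast this
    have h3 : ‖emb (D : ℝ) (w 0) (w 1) (w 2) s‖ ^ 2 ≤ 1 := by
      rw [hn, div_le_one (by positivity)]
      exact this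
    nlinarith [norm_nonneg (emb (D : ℝ) (w 0) (w 1) (w 2) s)]
  · intro v hv z hz
    obtain ⟨s, _, rfl⟩ := List.mem_map.1 hv
    simp only [emb, inner_add_right, inner_smul_right, hz 0, hz 1, hz 2]
    simp
  · have := dead_of_deadZ (D : ℝ) hD' (w 0) (w 1) (w 2) h0 h1 h2 h01 h02 h12 T L (0, 0, 0) hcert
    simpa [emb] using this

end Vale.Agent.Lib.P262
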