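import Vale.Agent.Lib.P262.Lower3

open scoped ENNReal

namespace Vale.Agent.Lib.P262

/-- Nineteen integer vectors of Euclidean norm at most `10^5`. -/
def cert19 : List Z3 :=
  [(18942, -38215, -90446), (-36578, 85392, -37013), (68256, 70502, 19239),
   (-8679, 57380, 81436), (-53580, 25168, 80594), (-3412, -99929, -1448),
   (52544, -79781, -29559), (89386, -34189, -28997), (89148, -18626, -41296),
   (-71150, 69681, -9046), (30556, -84195, 44465), (-62268, 516, 78244),
   (14080, -11807, -98295), (9094, -98582, 14085), (-42822, -26394, -86425),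
   (-67127, -20823, -71133), (-22519, 20672, -95211), (45827, -88282, -10281),
   (-71994, 50834, 47248)]

theorem cert19_norm : ∀ v ∈ cert19, nsq v ≤ 100000 * 100000 := by
  decide +kernel

theorem cert19_dead : deadZ 43100000000 (0, 0, 0) cert19 = true := by
  decide +kernel

theorem forcible_three : Forcible 3 (431 / 100) := by
  have := forcible_three_of_cert 100000 (by norm_num) 43100000000 cert19 cert19_norm cert19_dead
  convert this using 1
  norm_num

theorem sqrt_le_sigma3 (d : ℕ) (hd : 3 ≤ d) :
    ENNReal.ofReal (Real.sqrt ((d : ℝ) + 131 / 100)) ≤ sigma d := by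
  obtain ⟨m, rfl⟩ : ∃ m, d = 3 + m := ⟨d - 3, by omega⟩
  have := (forcible_three.add m).le_sigma
  convert this using 3
  push_cast
  ring

end Vale.Agent.Lib.P262
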