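import Vale.Agent.Lib.P262.Defs

/-! # P262: the Euclidean Steinitz constant -/

open scoped ENNReal

namespace Vale.Agent.Lib.P262

/-- `steinitzN d N`: supremum over all zero-sum families `v_1,...,v_N` in the Euclidean unit ball of
`ℝ^d` of the minimum over all orderings `π` of the maximum over `0 ≤ k ≤ N` of the norm of the `k`-th
partial sum `v_{π(1)} + ... + v_{π(k)}`. -/
noncomputable def steinitzN (d N : ℕ) : ℝ≥0∞ :=
  ⨆ (v : Fin N → EuclideanSpace ℝ (Fin d)) (_ : ∀ i, ‖v i‖ ≤ 1) (_ : ∑ i, v i = 0),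
    ⨅ π : Equiv.Perm (Fin N),
      ⨆ k : Fin (N + 1), ‖∑ i ∈ Finset.univ.filter (fun i : Fin N => i.val < k.val), v (π i)‖ₑ

/-- The Euclidean Steinitz constant `S_2(d) = sup_N steinitzN d N`. -/
noncomputable def steinitz (d : ℕ) : ℝ≥0∞ := ⨆ N : ℕ, steinitzN d N

end Vale.Agent.Lib.P262
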