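import Mathlib

/-! # P262 task C2: plus signs first, minus signs afterwards in reverse order -/

namespace Vale.Agent.Lib.P262

variable {E : Type*} [NormedAddCommGroup E] [NormedSpace ℝ E]

/-- The key of Chobanyan's rearrangement: indices with sign `+1` come first in increasing order, the
others afterwards in decreasing order. -/
noncomputable def chKey {N : ℕ} (θ : Fin N → ℝ) (i : Fin N) : ℕ :=
  if θ i = 1 then i.val else 2 * N - i.val

/-- TASK C2a.  Keys of plus indices are `< N`, keys of the others are `> N` (`i.val < N`); `omega` after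
`unfold chKey; split_ifs`, then `Fin.ext`. -/
theorem chKey_injective {N : ℕ} (θ : Fin N → ℝ) : Function.Injective (chKey θ) := by
  intro i j h
  have hi := i.isLt
  have hj := j.isLt
  unfold chKey at h
  split_ifs at h <;> exact Fin.ext (by omega)

/-- TASK C2b.  Case `c ≤ N`: `chKey θ i < c ↔ θ i = 1 ∧ i.val < c`, and
`∑_{θ i = 1, i < c} w i = (1/2) • (∑_{i<c} w i + ∑_{i<c} θ i • w i)` (termwise: `Finset.sum_filter`, the indicator of
`θ i = 1` is `(1 + θ i)/2` by `hθ`).  Case `N < c`: with `m := 2 * N + 1 - c` one has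
`¬ (chKey θ i < c) ↔ θ i = -1 ∧ i.val < m` (omega, `i.val < N`), so by `h0`
(`Finset.sum_filter_add_sum_filter_not`)
`∑_{chKey θ i < c} w i = - ∑_{θ i = -1, i < m} w i = -(1/2) • (∑_{i<m} w i - ∑_{i<m} θ i • w i)`.
In both cases `norm_smul`, `norm_add_le` / `norm_sub_le`, `hA`, `hB`. -/
theorem downset_bound {N : ℕ} (w : Fin N → E) (h0 : ∑ i, w i = 0) (θ : Fin N → ℝ)
    (hθ : ∀ i, θ i = 1 ∨ θ i = -1) (A B : ℝ)
    (hA : ∀ k : ℕ, ‖∑ i ∈ Finset.univ.filter (fun i : Fin N => i.val < k), w i‖ ≤ A)
    (hB : ∀ k : ℕ, ‖∑ i ∈ Finset.univ.filter (fun i : Fin N => i.val < k), θ i • w i‖ ≤ B)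
    (c : ℕ) :
    ‖∑ i ∈ Finset.univ.filter (fun i : Fin N => chKey θ i < c), w i‖ ≤ (A + B) / 2 := by
  classical
  by_cases hc : c ≤ N
  · have e : ∑ i ∈ Finset.univ.filter (fun i : Fin N => chKey θ i < c), w i
        = (1 / 2 : ℝ) • (∑ i ∈ Finset.univ.filter (fun i : Fin N => i.val < c), w i
          + ∑ i ∈ Finset.univ.filter (fun i : Fin N => i.val < c), θ i • w i) := by
      rw [← Finset.sum_add_distrib, Finset.smul_sum, Finset.sum_filter, Finset.sum_filter]
      refine Finset.sum_congr rfl (fun i _ => ?_)
      have hi := i.isLt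
      rcases hθ i with h | h
      · have hk : chKey θ i = i.val := by simp [chKey, h]
        rw [hk, h]
        by_cases hic : i.val < c
        · simp only [hic, if_true, one_smul]
          rw [← two_smul ℝ (w i), smul_smul]; norm_num
        · simp [hic]
      · have hne : θ i ≠ 1 := by rw [h]; norm_num
        have hk : chKey θ i = 2 * N - i.val := by simp [chKey, hne]
        have hnot : ¬ (chKey θ i < c) := by rw [hk]; omega
        rw [h]
        by_cases hic : i.val < c
        · simp [hnot, hic]
        · simp [hnot, hic]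
    rw [e, norm_smul]
    have h1 := norm_add_le (∑ i ∈ Finset.univ.filter (fun i : Fin N => i.val < c), w i)
      (∑ i ∈ Finset.univ.filter (fun i : Fin N => i.val < c), θ i • w i)
    have h2 := hA c
    have h3 := hB c
    have h4 : ‖(1 / 2 : ℝ)‖ = 1 / 2 := by norm_num
    rw [h4]
    linarith
  · have hc' : N < c := not_le.mp hc
    set m : ℕ := 2 * N + 1 - c with hm
    have e : ∑ i ∈ Finset.univ.filter (fun i : Fin N => chKey θ i < c), w i
        = -((1 / 2 : ℝ) • (∑ i ∈ Finset.univ.filter (fun i : Fin N => i.val < m), w i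
          - ∑ i ∈ Finset.univ.filter (fun i : Fin N => i.val < m), θ i • w i)) := by
      have hsplit := Finset.sum_filter_add_sum_filter_not (Finset.univ : Finset (Fin N))
        (fun i : Fin N => chKey θ i < c) w
      rw [h0] at hsplit
      rw [eq_neg_iff_add_eq_zero, ← hsplit]
      congr 1
      rw [← Finset.sum_sub_distrib, Finset.smul_sum, Finset.sum_filter, Finset.sum_filter]
      refine Finset.sum_congr rfl (fun i _ => ?_)
      have hi := i.isLt
      rcases hθ i with h | h
      · have hk : chKey θ i = i.val := by simp [chKey, h]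
        have hlt : chKey θ i < c := by rw [hk]; omega
        rw [h]
        by_cases hic : i.val < m
        · simp [hlt, hic]
        · simp [hlt, hic]
      · have hne : θ i ≠ 1 := by rw [h]; norm_num
        have hk : chKey θ i = 2 * N - i.val := by simp [chKey, hne]
        have hiff : ¬ (chKey θ i < c) ↔ i.val < m := by rw [hk]; omega
        rw [h]
        by_cases hic : i.val < m
        · have hn : ¬ (chKey θ i < c) := hiff.mpr hic
          simp only [hn, not_false_eq_true, if_true, hic, neg_smul, one_smul, sub_neg_eq_add]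
          rw [← two_smul ℝ (w i), smul_smul]; norm_num
        · have hn : ¬ ¬ (chKey θ i < c) := fun h' => hic (hiff.mp h')
          simp [hn, hic]
    rw [e, norm_neg, norm_smul]
    have h1 := norm_sub_le (∑ i ∈ Finset.univ.filter (fun i : Fin N => i.val < m), w i)
      (∑ i ∈ Finset.univ.filter (fun i : Fin N => i.val < m), θ i • w i)
    have h2 := hA m
    have h3 := hB m
    have h4 : ‖(1 / 2 : ℝ)‖ = 1 / 2 := by norm_num
    rw [h4]
    linarith

end Vale.Agent.Lib.P262
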