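import Vale.Agent.Lib.P262.StSort
import Vale.Agent.Lib.P262.StDown

/-! # P262 task C3: Chobanyan's transference argument -/

namespace Vale.Agent.Lib.P262

variable {E : Type*} [NormedAddCommGroup E] [NormedSpace ℝ E]

/-- Chobanyan's transference argument: if every ordering of a zero-sum family admits signs with all
signed partial sums of norm at most `K`, then some ordering has all partial sums of norm at most `K`. -/
theorem chobanyan {N : ℕ} (v : Fin N → E) (h0 : ∑ i, v i = 0) (K : ℝ)
    (hK : ∀ π : Equiv.Perm (Fin N), ∃ θ : Fin N → ℝ, (∀ i, θ i = 1 ∨ θ i = -1) ∧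
      ∀ k : ℕ, ‖∑ i ∈ Finset.univ.filter (fun i : Fin N => i.val < k), θ i • v (π i)‖ ≤ K) :
    ∃ π : Equiv.Perm (Fin N),
      ∀ k : ℕ, ‖∑ i ∈ Finset.univ.filter (fun i : Fin N => i.val < k), v (π i)‖ ≤ K := by
  classical
  let A : Equiv.Perm (Fin N) → ℝ := fun π => (Finset.range (N + 1)).sup' ⟨0, by simp⟩
    (fun k => ‖∑ i ∈ Finset.univ.filter (fun i : Fin N => i.val < k), v (π i)‖)
  have hA : ∀ (π : Equiv.Perm (Fin N)) (k : ℕ),
      ‖∑ i ∈ Finset.univ.filter (fun i : Fin N => i.val < k), v (π i)‖ ≤ A π := by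
    intro π k
    by_cases hk : k ≤ N
    · exact Finset.le_sup'
        (fun k => ‖∑ i ∈ Finset.univ.filter (fun i : Fin N => i.val < k), v (π i)‖)
        (Finset.mem_range.mpr (by omega))
    · have : Finset.univ.filter (fun i : Fin N => i.val < k)
          = Finset.univ.filter (fun i : Fin N => i.val < N) := by
        ext i
        have := i.isLt
        simp only [Finset.mem_filter, Finset.mem_univ, true_and]
        constructor <;> intro _ <;> omega
      rw [this]
      exact Finset.le_sup'
        (fun k => ‖∑ i ∈ Finset.univ.filter (fun i : Fin N => i.val < k), v (π i)‖)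
        (Finset.mem_range.mpr (by omega))
  obtain ⟨π0, hπ0⟩ := Finite.exists_min A
  obtain ⟨θ, hθ, hB⟩ := hK π0
  refine ⟨π0, fun k => (hA π0 k).trans ?_⟩
  have h1 : A ((Tuple.sort (chKey θ)).trans π0) ≤ (A π0 + K) / 2 := by
    apply Finset.sup'_le
    intro k _
    obtain ⟨c, hc⟩ := prefix_sort (chKey θ) (chKey_injective θ) (fun i => v (π0 i)) k
    have e : ∑ i ∈ Finset.univ.filter (fun i : Fin N => i.val < k),
          v (((Tuple.sort (chKey θ)).trans π0) i)
        = ∑ j ∈ Finset.univ.filter (fun j : Fin N => j.val < k),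
          (fun i => v (π0 i)) (Tuple.sort (chKey θ) j) := rfl
    rw [e, hc]
    exact downset_bound (fun i => v (π0 i)) (by rw [Equiv.sum_comp π0 v]; exact h0) θ hθ (A π0) K
      (hA π0) hB c
  have h2 := hπ0 ((Tuple.sort (chKey θ)).trans π0)
  linarith

end Vale.Agent.Lib.P262
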