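import Vale.Agent.Lib.P262.U4Step

/-! # P262: `σ(4) ≤ √10` -/

open scoped ENNReal

namespace Vale.Agent.Lib.P262

theorem upper4 (N : ℕ) (v : Fin N → E4) (hv : ∀ i, ‖v i‖ ≤ 1) :
    ∃ ε : Fin N → ℝ, (∀ i, ε i = 1 ∨ ε i = -1) ∧
      ∀ k : Fin (N + 1), ‖∑ i ∈ Finset.univ.filter (fun i : Fin N => i.val < k.val), ε i • v i‖
        ≤ Real.sqrt 10 := by
  set v' : ℕ → E4 := fun j => if h : j < N then v ⟨j, h⟩ else 0 with hv'
  have hv'' : ∀ j, ‖v' j‖ ≤ 1 := by
    intro j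
    simp only [hv']
    split_ifs with h
    · exact hv _
    · simp
  obtain ⟨g, _, hg⟩ := balance_of_step (m := 4) (T := 10) (by norm_num) step4 v' hv'' N
  obtain ⟨ε, hε, hgood, _⟩ := hg (fun _ => 1) (fun _ => Or.inl rfl)
  refine ⟨fun i => ε i.val, fun i => hε i.val, ?_⟩
  intro k
  have hk : k.val ≤ N := Nat.le_of_lt_succ k.isLt
  have hsum : ∑ i ∈ Finset.univ.filter (fun i : Fin N => i.val < k.val), ε i.val • v i
      = ∑ j ∈ Finset.range k.val, ε j • v' j := by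
    rw [← sum_fin_filter_eq N k.val hk (fun j => ε j • v' j)]
    apply Finset.sum_congr rfl
    intro i _
    simp [hv']
  rw [hsum]
  exact Real.le_sqrt_of_sq_le (hgood k.val hk)

theorem sigma_four_le : sigma 4 ≤ ENNReal.ofReal (Real.sqrt 10) :=
  sigma_le_of_balancing upper4

end Vale.Agent.Lib.P262
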