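import Vale.Agent.Lib.P262.StDefs
import Vale.Agent.Lib.P262.StMin
import Vale.Agent.Lib.P262.U4Final

/-! # P262: `S_2(4) ≤ √10` -/

open scoped ENNReal

namespace Vale.Agent.Lib.P262

/-- A balancing bound for signed partial sums in dimension `d` bounds the Steinitz constant. -/
theorem steinitz_le_of_balancing {d : ℕ} {K : ℝ}
    (h : ∀ (N : ℕ) (v : Fin N → EuclideanSpace ℝ (Fin d)), (∀ i, ‖v i‖ ≤ 1) →
      ∃ ε : Fin N → ℝ, (∀ i, ε i = 1 ∨ ε i = -1) ∧
        ∀ k : Fin (N + 1),
          ‖∑ i ∈ Finset.univ.filter (fun i : Fin N => i.val < k.val), ε i • v i‖ ≤ K) :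
    steinitz d ≤ ENNReal.ofReal K := by
  unfold steinitz steinitzN
  refine iSup_le (fun N => iSup_le (fun v => iSup_le (fun hv => iSup_le (fun h0 => ?_))))
  obtain ⟨π, hπ⟩ := chobanyan v h0 K (by
    intro π
    obtain ⟨ε, hε, hk⟩ := h N (fun i => v (π i)) (fun i => hv (π i))
    refine ⟨ε, hε, fun k => ?_⟩
    by_cases hkN : k ≤ N
    · exact hk ⟨k, by omega⟩
    · have : Finset.univ.filter (fun i : Fin N => i.val < k)
          = Finset.univ.filter (fun i : Fin N => i.val < N) := by
        ext i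
        have := i.isLt
        simp only [Finset.mem_filter, Finset.mem_univ, true_and]
        constructor <;> intro _ <;> omega
      rw [this]
      exact hk ⟨N, by omega⟩)
  refine iInf_le_of_le π (iSup_le (fun k => ?_))
  rw [← ofReal_norm]
  exact ENNReal.ofReal_le_ofReal (hπ k.val)

theorem steinitz_four_le : steinitz 4 ≤ ENNReal.ofReal (Real.sqrt 10) :=
  steinitz_le_of_balancing upper4

end Vale.Agent.Lib.P262
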