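import Mathlib

/-! # P262 task C1: initial segments of a sorted order are down-sets of the key -/

namespace Vale.Agent.Lib.P262

variable {E : Type*} [AddCommMonoid E]

/-- TASK C1.  `τ := Tuple.sort key`; `Tuple.monotone_sort key : Monotone (key ∘ τ)`, and with `hinj` and the
injectivity of `τ` it is `StrictMono` (`Monotone.strictMono_of_injective`).
If `N ≤ k`: take `c := (∑ i, key i) + 1` (or any strict upper bound of the keys); both filters are `univ`
(`Finset.filter_true_of_mem`) and `Equiv.sum_comp τ f` finishes.
If `k < N`: take `c := key (τ ⟨k, _⟩)`.  Then `j.val < k ↔ key (τ j) < c` (`StrictMono.lt_iff_lt`), so the left side is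
`∑ j with key (τ j) < c, f (τ j)`; write both sides with `Finset.sum_filter` as sums of `if`s over `univ` and use
`Equiv.sum_comp τ (fun i => if key i < c then f i else 0)`. -/
theorem prefix_sort {N : ℕ} (key : Fin N → ℕ) (hinj : Function.Injective key) (f : Fin N → E)
    (k : ℕ) :
    ∃ c : ℕ, ∑ j ∈ Finset.univ.filter (fun j : Fin N => j.val < k), f (Tuple.sort key j)
      = ∑ i ∈ Finset.univ.filter (fun i : Fin N => key i < c), f i := by
  set τ := Tuple.sort key with hτ
  have hmono : StrictMono (key ∘ τ) :=
    (Tuple.monotone_sort key).strictMono_of_injective (hinj.comp τ.injective)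
  by_cases hk : N ≤ k
  · refine ⟨(∑ i, key i) + 1, ?_⟩
    rw [Finset.filter_true_of_mem (fun j _ => lt_of_lt_of_le j.isLt hk),
      Finset.filter_true_of_mem (fun i _ => Nat.lt_succ_of_le
        (Finset.single_le_sum (f := key) (fun _ _ => Nat.zero_le _) (Finset.mem_univ i)))]
    exact Equiv.sum_comp τ f
  · push Not at hk
    refine ⟨key (τ ⟨k, hk⟩), ?_⟩
    have hiff : ∀ j : Fin N, j.val < k ↔ key (τ j) < key (τ ⟨k, hk⟩) := by
      intro j
      have := hmono.lt_iff_lt (a := j) (b := ⟨k, hk⟩)
      simp only [Function.comp] at this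
      rw [this]
      exact Iff.rfl
    rw [Finset.sum_filter, Finset.sum_filter]
    rw [← Equiv.sum_comp τ (fun i => if key i < key (τ ⟨k, hk⟩) then f i else 0)]
    refine Finset.sum_congr rfl fun j _ => ?_
    simp only [hiff j]

end Vale.Agent.Lib.P262
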