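import Vale.Agent.Lib.P262.U4Round

/-! # P262 task M3: merge lemma, case of a second large coefficient -/

namespace Vale.Agent.Lib.P262

variable {E : Type*} [NormedAddCommGroup E] [InnerProductSpace ℝ E]

/-- TASK M3.  `e k := if 0 ≤ c k then 1 else -1`, `z k := |c k| = e k * c k`, `h k := e k • p k`
(so `‖h k‖ ≤ 1`, `∑ z k • h k = ∑ c k • p k = 0`, `z i0 = 1`, `e i0 = 1`).  `S := univ \ {i0, i1}` has three
elements.  `exists_rounding S h z _ _ ((1 - z i1) • h i1)` gives `b`.
`s k := if k = i0 ∨ k = i1 then e k else b k * e k`.  Then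
`∑ s k • p k = h i0 + h i1 + ∑_S b k • h k = (that) - ∑ z k • h k = (1 - z i1) • h i1 + ∑_S (b k - z k) • h k`
(split `univ` as `insert i0 (insert i1 S)`), and its squared norm is at most
`(1 - z i1)² + ∑_S z (1 - z) ≤ 1/4 + 3/4` (`z (1 - z) ≤ 1/4`, `Finset.sum_le_card_nsmul`). -/
theorem merge_caseI (p : Fin 5 → E) (hp : ∀ k, ‖p k‖ ≤ 1) (c : Fin 5 → ℝ)
    (hc0 : ∑ k, c k • p k = 0) (hc1 : ∀ k, |c k| ≤ 1) (i0 i1 : Fin 5) (h01 : i0 ≠ i1)
    (hi0 : c i0 = 1) (hi1 : 1 / 2 ≤ |c i1|) :
    ∃ s : Fin 5 → ℝ, (∀ k, s k = 0 ∨ IsS (s k)) ∧ s i0 ≠ 0 ∧ s i1 ≠ 0 ∧ ‖∑ k, s k • p k‖ ≤ 1 := by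
  classical
  set e : Fin 5 → ℝ := fun k => if 0 ≤ c k then 1 else -1 with hedef
  have heS : ∀ k, IsS (e k) := by
    intro k
    by_cases hk : 0 ≤ c k
    · left; simp [hedef, hk]
    · right; simp [hedef, hk]
  have hesq : ∀ k, e k * e k = 1 := by
    intro k
    rcases heS k with h | h <;> rw [h] <;> norm_num
  have hene : ∀ k, e k ≠ 0 := by
    intro k hk
    have := hesq k
    rw [hk] at this
    norm_num at this
  have hz : ∀ k, |c k| = e k * c k := by
    intro k
    by_cases hk : 0 ≤ c k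
    · simp [hedef, hk, abs_of_nonneg hk]
    · have hk' : c k < 0 := not_le.mp hk
      simp [hedef, hk, abs_of_neg hk']
  have heabs : ∀ k, |e k| = 1 := by
    intro k
    rcases heS k with h | h <;> rw [h] <;> norm_num
  have hh : ∀ k, ‖e k • p k‖ ≤ 1 := by
    intro k
    rw [norm_smul, Real.norm_eq_abs, heabs, one_mul]
    exact hp k
  have he0 : e i0 = 1 := by simp [hedef, hi0]
  set S : Finset (Fin 5) := (Finset.univ.erase i0).erase i1 with hSdef
  have hScard : S.card = 3 := by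
    rw [hSdef, Finset.card_erase_of_mem (by simp [h01.symm]),
      Finset.card_erase_of_mem (Finset.mem_univ _)]
    simp
  obtain ⟨b, hb, hble⟩ := exists_rounding S (fun k => e k • p k) (fun k => |c k|)
    (fun k => abs_nonneg _) hc1 ((1 - |c i1|) • (e i1 • p i1))
  set s : Fin 5 → ℝ := fun k => if k = i0 ∨ k = i1 then e k else b k * e k with hsdef
  have hs0 : s i0 = e i0 := by simp [hsdef]
  have hs1 : s i1 = e i1 := by simp [hsdef]
  have hsS : ∀ k ∈ S, s k = b k * e k := by
    intro k hk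
    have h1 : k ≠ i1 := (Finset.mem_erase.mp hk).1
    have h0 : k ≠ i0 := (Finset.mem_erase.mp (Finset.mem_erase.mp hk).2).1
    simp [hsdef, h0, h1]
  have hkey : ∑ k, s k • p k
      = (1 - |c i1|) • (e i1 • p i1) + ∑ k ∈ S, (b k - |c k|) • (e k • p k) := by
    have h1 : ∑ k, s k • p k = ∑ k, (s k - c k) • p k := by
      simp only [sub_smul, Finset.sum_sub_distrib, hc0, sub_zero]
    rw [h1, ← Finset.add_sum_erase Finset.univ _ (Finset.mem_univ i0),
      ← Finset.add_sum_erase (Finset.univ.erase i0) _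
        (show i1 ∈ Finset.univ.erase i0 by simp [h01.symm])]
    have t0 : (s i0 - c i0) • p i0 = 0 := by
      rw [hs0, he0, hi0, sub_self, zero_smul]
    have t1 : (s i1 - c i1) • p i1 = (1 - |c i1|) • (e i1 • p i1) := by
      rw [hs1, smul_smul, hz i1]
      congr 1
      have := hesq i1
      linear_combination (c i1) * this
    have t2 : ∑ k ∈ (Finset.univ.erase i0).erase i1, (s k - c k) • p k
        = ∑ k ∈ S, (b k - |c k|) • (e k • p k) := by
      refine Finset.sum_congr rfl ?_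
      intro k hk
      rw [hsS k hk, smul_smul, hz k]
      congr 1
      have := hesq k
      linear_combination (c k) * this
    rw [t0, t1, t2, zero_add]
  refine ⟨s, ?_, ?_, ?_, ?_⟩
  · intro k
    by_cases hk : k = i0 ∨ k = i1
    · right
      simpa [hsdef, hk] using heS k
    · rcases hb k with h | h
      · left
        simp [hsdef, hk, h]
      · right
        simpa [hsdef, hk, h] using heS k
  · rw [hs0]; exact hene _
  · rw [hs1]; exact hene _
  · rw [hkey]
    have hA : ‖(1 - |c i1|) • (e i1 • p i1)‖ ^ 2 ≤ 1 / 4 := by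
      rw [norm_smul, mul_pow, Real.norm_eq_abs, sq_abs]
      have a1 : 0 ≤ 1 - |c i1| := by linarith [hc1 i1]
      have a2 : 1 - |c i1| ≤ 1 / 2 := by linarith
      have a3 : (1 - |c i1|) ^ 2 ≤ 1 / 4 := by nlinarith
      have a4 : ‖e i1 • p i1‖ ^ 2 ≤ 1 := by
        have := hh i1
        have hn := norm_nonneg (e i1 • p i1)
        nlinarith
      have a5 : 0 ≤ ‖e i1 • p i1‖ ^ 2 := by positivity
      have a6 : 0 ≤ (1 - |c i1|) ^ 2 := by positivity
      nlinarith
    have hB : ∑ k ∈ S, |c k| * (1 - |c k|) * ‖e k • p k‖ ^ 2 ≤ 3 / 4 := by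
      have hterm : ∀ k ∈ S, |c k| * (1 - |c k|) * ‖e k • p k‖ ^ 2 ≤ 1 / 4 := by
        intro k _
        have b1 : 0 ≤ |c k| := abs_nonneg _
        have b2 : |c k| ≤ 1 := hc1 k
        have b3 : |c k| * (1 - |c k|) ≤ 1 / 4 := by nlinarith [sq_nonneg (|c k| - 1 / 2)]
        have b4 : 0 ≤ |c k| * (1 - |c k|) := mul_nonneg b1 (by linarith)
        have b5 : ‖e k • p k‖ ^ 2 ≤ 1 := by
          have := hh k
          have hn := norm_nonneg (e k • p k)
          nlinarith
        have b6 : 0 ≤ ‖e k • p k‖ ^ 2 := by positivity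
        nlinarith
      have := Finset.sum_le_card_nsmul S _ (1 / 4 : ℝ) hterm
      rw [hScard] at this
      simp only [nsmul_eq_mul] at this
      norm_num at this
      linarith
    have hfin : ‖(1 - |c i1|) • (e i1 • p i1) + ∑ k ∈ S, (b k - |c k|) • (e k • p k)‖ ^ 2 ≤ 1 := by
      linarith
    have hn := norm_nonneg ((1 - |c i1|) • (e i1 • p i1) + ∑ k ∈ S, (b k - |c k|) • (e k • p k))
    by_contra hcon
    push Not at hcon
    nlinarith

end Vale.Agent.Lib.P262
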