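import Vale.Agent.Lib.P262.U4Ref

/-! # P262 task M4: merge lemma, case of small coefficients -/

namespace Vale.Agent.Lib.P262

variable {E : Type*} [NormedAddCommGroup E] [InnerProductSpace ℝ E]

/-- TASK M4.  By contradiction: for all `j ≠ i0` both `‖p i0 + p j‖ > 1` and `‖p i0 - p j‖ > 1`, so
(`norm_add_sq_real`) `2 |<p i0, p j>| < ‖p i0‖² + ‖p j‖² - 1 ≤ ‖p i0‖² =: a`.  Taking the inner product of
`hc0` with `p i0` (`Finset.sum_erase` / `Finset.add_sum_erase`, `inner_sum`, `inner_smul_right`):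
`a = - ∑_{k ≠ i0} c k <p i0, p k> ≤ ∑ |c k| |<p i0, p k>|`, which is `< (∑ |c k|) a / 2 ≤ a` if some
`c k ≠ 0`, and `0` otherwise. -/
theorem merge_caseII {n : ℕ} (p : Fin n → E) (hp : ∀ k, ‖p k‖ ≤ 1) (c : Fin n → ℝ)
    (hc0 : ∑ k, c k • p k = 0) (i0 : Fin n) (hi0 : c i0 = 1)
    (hsum : ∑ k ∈ Finset.univ.erase i0, |c k| ≤ 2) (hn : ∃ j, j ≠ i0) :
    ∃ j, j ≠ i0 ∧ ∃ σ : ℝ, IsS σ ∧ ‖p i0 + σ • p j‖ ≤ 1 := by
  classical
  by_contra hcon
  push Not at hcon
  set a := ‖p i0‖ ^ 2 with ha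
  have h1 : ∀ j, j ≠ i0 → 2 * |inner ℝ (p i0) (p j)| < a := by
    intro j hj
    by_contra hlt
    push Not at hlt
    have hpj : ‖p j‖ ^ 2 ≤ 1 := by
      have := hp j
      have h0 := norm_nonneg (p j)
      nlinarith
    obtain ⟨ρ, hρ, hle⟩ := exists_sign_merge (p i0) (p j) (by linarith)
    exact absurd hle (not_le.2 (hcon j hj ρ hρ))
  have h2 : a + ∑ k ∈ Finset.univ.erase i0, c k * inner ℝ (p i0) (p k) = 0 := by
    have := congrArg (fun v => inner ℝ (p i0) v) hc0
    simp only [inner_sum, inner_smul_right, inner_zero_right] at this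
    rw [← Finset.add_sum_erase _ _ (Finset.mem_univ i0), hi0, one_mul,
      real_inner_self_eq_norm_sq] at this
    exact this
  obtain ⟨j, hj⟩ := hn
  have hapos : 0 < a := lt_of_le_of_lt (by positivity) (h1 j hj)
  have h3 : a ≤ ∑ k ∈ Finset.univ.erase i0, |c k| * |inner ℝ (p i0) (p k)| := by
    have e : a = ∑ k ∈ Finset.univ.erase i0, -(c k * inner ℝ (p i0) (p k)) := by
      rw [Finset.sum_neg_distrib]; linarith
    rw [e]
    apply Finset.sum_le_sum
    intro k _
    rw [← abs_mul]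
    exact neg_le_abs _
  have h5 : ∑ k ∈ Finset.univ.erase i0, |c k| * (a / 2) ≤ a := by
    rw [← Finset.sum_mul]
    nlinarith
  by_cases hall : ∀ k ∈ Finset.univ.erase i0, c k = 0
  · have : ∑ k ∈ Finset.univ.erase i0, |c k| * |inner ℝ (p i0) (p k)| = 0 := by
      apply Finset.sum_eq_zero
      intro k hk
      rw [hall k hk]; simp
    linarith
  · push Not at hall
    obtain ⟨k, hk, hck⟩ := hall
    have h4 : ∑ k ∈ Finset.univ.erase i0, |c k| * |inner ℝ (p i0) (p k)|
        < ∑ k ∈ Finset.univ.erase i0, |c k| * (a / 2) := by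
      apply Finset.sum_lt_sum
      · intro l hl
        have := h1 l (Finset.ne_of_mem_erase hl)
        exact mul_le_mul_of_nonneg_left (by linarith) (abs_nonneg _)
      · refine ⟨k, hk, ?_⟩
        have := h1 k (Finset.ne_of_mem_erase hk)
        exact mul_lt_mul_of_pos_left (by linarith) (abs_pos.2 hck)
    linarith

end Vale.Agent.Lib.P262
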