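import Vale.Agent.Lib.P262.U4Pair

/-! # P262 task P3: merging until all inner products are at most one half -/

namespace Vale.Agent.Lib.P262

variable {E : Type*} [NormedAddCommGroup E] [InnerProductSpace ℝ E]

/-- TASK P3.  Strong induction on `(Finset.univ.filter (fun k => p k ≠ 0)).card` (generalising `p`;
`induction' h : ... using Nat.strong_induction_on generalizing p`).  If all pairs are fine take `p' = p`.  Otherwise
`pair_merge` for a bad pair `i ≠ j`: `p j ≠ 0` (the inner product is nonzero) while the new family vanishes at `j` and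
wherever `p` vanishes, so the number of nonzero entries drops (`Finset.card_lt_card`, strict subset witnessed by `j`);
compose with `Ref.trans`. -/
theorem clean {n : ℕ} (p : Fin n → E) (hp : ∀ k, ‖p k‖ ≤ 1) :
    ∃ p' : Fin n → E, (∀ k, ‖p' k‖ ≤ 1) ∧ Ref p p' ∧ (∀ k, p k = 0 → p' k = 0) ∧
      ∀ i j, i ≠ j → |inner ℝ (p' i) (p' j)| ≤ 1 / 2 := by
  classical
  have key : ∀ (N : ℕ) (p : Fin n → E), (∀ k, ‖p k‖ ≤ 1) →
      (Finset.univ.filter (fun k => p k ≠ 0)).card = N →
      ∃ p' : Fin n → E, (∀ k, ‖p' k‖ ≤ 1) ∧ Ref p p' ∧ (∀ k, p k = 0 → p' k = 0) ∧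
        ∀ i j, i ≠ j → |inner ℝ (p' i) (p' j)| ≤ 1 / 2 := by
    intro N
    induction N using Nat.strong_induction_on with
    | _ N ih =>
      intro p hp hN
      by_cases hall : ∀ i j, i ≠ j → |inner ℝ (p i) (p j)| ≤ 1 / 2
      · exact ⟨p, hp, Ref.refl p, fun _ h => h, hall⟩
      · push Not at hall
        obtain ⟨i, j, hij, hbad⟩ := hall
        obtain ⟨p1, hp1, href1, hj1, hz1⟩ := pair_merge p hp i j hij hbad
        have hpj : p j ≠ 0 := by
          intro h0
          rw [h0, inner_zero_right, abs_zero] at hbad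
          norm_num at hbad
        have hlt : (Finset.univ.filter (fun k => p1 k ≠ 0)).card < N := by
          rw [← hN]
          apply Finset.card_lt_card
          rw [Finset.ssubset_iff_of_subset]
          · refine ⟨j, ?_, ?_⟩
            · simp [hpj]
            · simp [hj1]
          · intro k hk
            simp only [Finset.mem_filter, Finset.mem_univ, true_and] at hk ⊢
            exact fun h0 => hk (hz1 k h0)
        obtain ⟨p2, hp2, href2, hz2, hfine⟩ := ih _ hlt p1 hp1 rfl
        exact ⟨p2, hp2, href1.trans href2, fun k h0 => hz2 k (hz1 k h0), hfine⟩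
  exact key _ p hp rfl

end Vale.Agent.Lib.P262
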