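import Vale.Agent.Lib.P262.U4Ref

/-! # P262 task M1: normalised linear dependency -/

namespace Vale.Agent.Lib.P262

variable {E : Type*} [NormedAddCommGroup E] [InnerProductSpace ℝ E]

/-- TASK M1. `Fintype.not_linearIndependent_iff` gives `a` with `∑ a k • p k = 0` and some `a i ≠ 0`.
Take `i0` maximising `|a k|` (`Finite.exists_max`), so `a i0 ≠ 0`; `c k := a k / a i0`
(`Finset.smul_sum`, `abs_div`, `div_le_one`). -/
theorem exists_normalised_dep {n : ℕ} (p : Fin n → E) (h : ¬ LinearIndependent ℝ p) :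
    ∃ c : Fin n → ℝ, ∑ k, c k • p k = 0 ∧ (∀ k, |c k| ≤ 1) ∧ ∃ i0, c i0 = 1 := by
  obtain ⟨a, ha, i, hi⟩ := Fintype.not_linearIndependent_iff.1 h
  haveI : Nonempty (Fin n) := ⟨i⟩
  obtain ⟨i0, hi0⟩ := Finite.exists_max (fun k : Fin n => |a k|)
  have hpos : 0 < |a i0| := lt_of_lt_of_le (abs_pos.2 hi) (hi0 i)
  have hne : a i0 ≠ 0 := abs_pos.1 hpos
  refine ⟨fun k => a k / a i0, ?_, fun k => ?_, i0, div_self hne⟩
  · have e : ∑ k, (a k / a i0) • p k = (a i0)⁻¹ • ∑ k, a k • p k := by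
      rw [Finset.smul_sum]
      refine Finset.sum_congr rfl fun k _ => ?_
      rw [smul_smul, div_eq_inv_mul]
    rw [e, ha, smul_zero]
  · rw [abs_div, div_le_one hpos]
    exact hi0 k

end Vale.Agent.Lib.P262
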