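import Vale.Agent.Lib.P262.U4Merge

/-! # P262 task P2: a dependent family of five groups can be regrouped with a zero entry -/

namespace Vale.Agent.Lib.P262

variable {E : Type*} [NormedAddCommGroup E] [InnerProductSpace ℝ E]

/-- TASK P2 (general form, no dependency needed).  `p' k := if k = i0 then ∑ l, s l • p l else if s k = 0 then p k else 0`;
`p' i1 = 0`.  `Ref`: for signs `η` take `θ k := if s k = 0 then η k else η i0 * s k` (`IsS.mul`).
Both sides equal `η i0 • ∑_l s l • p l + ∑_{k : s k = 0} η k • p k`: write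
`η k • p' k = (if k = i0 then η i0 • ∑ l, s l • p l else 0) + (if s k = 0 then η k • p k else 0)` (as `s i0 ≠ 0`) and
`θ k • p k = η i0 • (s k • p k) + (if s k = 0 then η k • p k else 0)`, then `Finset.sum_add_distrib`,
`Finset.sum_ite_eq`, `Finset.smul_sum`. -/
theorem regroup_of_merge {n : ℕ} (p : Fin n → E) (hp : ∀ k, ‖p k‖ ≤ 1) (s : Fin n → ℝ)
    (i0 i1 : Fin n) (h01 : i0 ≠ i1) (hs : ∀ k, s k = 0 ∨ IsS (s k)) (h0 : s i0 ≠ 0)
    (h1 : s i1 ≠ 0) (hn : ‖∑ k, s k • p k‖ ≤ 1) :
    ∃ p' : Fin n → E, (∀ k, ‖p' k‖ ≤ 1) ∧ Ref p p' ∧ ∃ j, p' j = 0 := by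
  classical
  refine ⟨fun k => if k = i0 then ∑ l, s l • p l else if s k = 0 then p k else 0, ?_, ?_, i1, ?_⟩
  · intro k
    by_cases hk : k = i0
    · simpa [hk] using hn
    · by_cases hsk : s k = 0
      · simpa [hk, hsk] using hp k
      · simp [hk, hsk]
  · intro η hη
    refine ⟨fun k => if s k = 0 then η k else η i0 * s k, ?_, ?_⟩
    · intro k
      by_cases hsk : s k = 0
      · simpa [hsk] using hη k
      · have : IsS (s k) := (hs k).resolve_left hsk
        simpa [hsk] using (hη i0).mul this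
    · have e1 : ∀ k, η k • (if k = i0 then ∑ l, s l • p l else if s k = 0 then p k else 0)
          = (if k = i0 then η i0 • ∑ l, s l • p l else 0) + (if s k = 0 then η k • p k else 0) := by
        intro k
        by_cases hk : k = i0
        · subst hk
          simp [h0]
        · by_cases hsk : s k = 0
          · simp [hk, hsk]
          · simp [hk, hsk]
      have e2 : ∀ k, (if s k = 0 then η k else η i0 * s k) • p k
          = η i0 • (s k • p k) + (if s k = 0 then η k • p k else 0) := by
        intro k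
        by_cases hsk : s k = 0
        · simp [hsk]
        · simp [hsk, mul_smul]
      simp only [e1, e2, Finset.sum_add_distrib, Finset.sum_ite_eq', Finset.mem_univ, if_true,
        Finset.smul_sum]
  · have : i1 ≠ i0 := fun h => h01 h.symm
    simp [this, h1]

theorem dep_merge (p : Fin 5 → E) (hp : ∀ k, ‖p k‖ ≤ 1) (hdep : ¬ LinearIndependent ℝ p) :
    ∃ p' : Fin 5 → E, (∀ k, ‖p' k‖ ≤ 1) ∧ Ref p p' ∧ ∃ j, p' j = 0 := by
  obtain ⟨s, i0, i1, h01, hs, h0, h1, hn⟩ := exists_merge5 p hp hdep
  exact regroup_of_merge p hp s i0 i1 h01 hs h0 h1 hn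

end Vale.Agent.Lib.P262
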