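import Vale.Agent.Lib.P262.U4Dep
import Vale.Agent.Lib.P262.U4CaseI
import Vale.Agent.Lib.P262.U4CaseII

/-! # P262 task M5: the merge lemma for five dependent vectors of the unit ball -/

namespace Vale.Agent.Lib.P262

variable {E : Type*} [NormedAddCommGroup E] [InnerProductSpace ℝ E]

/-- TASK M5.  `exists_normalised_dep` gives `c, i0`.  If some `i1 ≠ i0` has `1/2 ≤ |c i1|`: `merge_caseI`.
Otherwise `∑_{k ≠ i0} |c k| ≤ 4 * (1/2) = 2` (`Finset.sum_le_card_nsmul`, `Finset.card_erase_of_mem`):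
`merge_caseII` gives `j, σ`; `s := fun k => if k = i0 then 1 else if k = j then σ else 0`
(`Finset.sum_ite_eq`-style computation, or `Fin.sum_univ_five` after `fin_cases`). -/
theorem exists_merge5 (p : Fin 5 → E) (hp : ∀ k, ‖p k‖ ≤ 1) (hdep : ¬ LinearIndependent ℝ p) :
    ∃ (s : Fin 5 → ℝ) (i0 i1 : Fin 5), i0 ≠ i1 ∧ (∀ k, s k = 0 ∨ IsS (s k)) ∧ s i0 ≠ 0 ∧
      s i1 ≠ 0 ∧ ‖∑ k, s k • p k‖ ≤ 1 := by
  obtain ⟨c, hc0, hc1, i0, hi0⟩ := exists_normalised_dep p hdep
  by_cases h : ∃ i1, i1 ≠ i0 ∧ 1 / 2 ≤ |c i1|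
  · obtain ⟨i1, h1, h2⟩ := h
    obtain ⟨s, hs, a, b, hn⟩ := merge_caseI p hp c hc0 hc1 i0 i1 h1.symm hi0 h2
    exact ⟨s, i0, i1, h1.symm, hs, a, b, hn⟩
  · have h' : ∀ i1, i1 ≠ i0 → |c i1| < 1 / 2 := by
      intro i1 hi1
      by_contra hh
      exact h ⟨i1, hi1, not_lt.1 hh⟩
    have hsum : ∑ k ∈ Finset.univ.erase i0, |c k| ≤ 2 := by
      have h1 : ∑ k ∈ Finset.univ.erase i0, |c k| ≤ (Finset.univ.erase i0).card • (1 / 2 : ℝ) :=
        Finset.sum_le_card_nsmul _ _ _ (fun k hk => (h' k (Finset.ne_of_mem_erase hk)).le)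
      rw [Finset.card_erase_of_mem (Finset.mem_univ _), Finset.card_univ, Fintype.card_fin] at h1
      have h2 : ((5 - 1 : ℕ) • (1 / 2 : ℝ)) = 2 := by norm_num
      rw [h2] at h1
      exact h1
    have hn : ∃ j : Fin 5, j ≠ i0 := by
      by_cases h0 : i0 = 0
      · exact ⟨1, by rw [h0]; decide⟩
      · exact ⟨0, fun hh => h0 hh.symm⟩
    obtain ⟨j, hj, σ, hσ, hnorm⟩ := merge_caseII p hp c hc0 i0 hi0 hsum hn
    have hσ0 : σ ≠ 0 := by
      rcases hσ with hh | hh <;> rw [hh] <;> norm_num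
    refine ⟨fun k => if k = i0 then 1 else if k = j then σ else 0, i0, j, hj.symm, ?_, ?_, ?_, ?_⟩
    · intro k
      by_cases h1 : k = i0
      · right
        left
        simp [h1]
      · by_cases h2 : k = j
        · right
          have : (if k = i0 then (1 : ℝ) else if k = j then σ else 0) = σ := by
            rw [if_neg h1, if_pos h2]
          show IsS (if k = i0 then (1 : ℝ) else if k = j then σ else 0)
          rw [this]
          exact hσ
        · left
          simp [h1, h2]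
    · simp
    · simp [hj, hσ0]
    · have e : ∀ k, (if k = i0 then (1 : ℝ) else if k = j then σ else 0) • p k
          = (if k = i0 then p i0 else 0) + (if k = j then σ • p j else 0) := by
        intro k
        by_cases h1 : k = i0
        · subst h1
          simp [hj.symm]
        · by_cases h2 : k = j
          · subst h2
            simp [h1]
          · simp [h1, h2]
      simp only [e]
      rw [Finset.sum_add_distrib, Finset.sum_ite_eq', Finset.sum_ite_eq']
      simpa using hnorm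

end Vale.Agent.Lib.P262
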