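import Vale.Agent.Lib.P262.U4Ref

/-! # P262 task P4: the bound ten -/

namespace Vale.Agent.Lib.P262

variable {E : Type*} [NormedAddCommGroup E] [InnerProductSpace ℝ E]

/-- TASK P4.  Expand the square as a double sum of `η i η j <p i, p j>`; the terms with `i = j0` or
`j = j0` vanish, the four other diagonal terms are at most one, the twelve other terms at most one
half. -/
theorem norm_sq_le_ten (p : Fin 5 → E) (hp : ∀ k, ‖p k‖ ≤ 1) (j0 : Fin 5) (h0 : p j0 = 0)
    (hin : ∀ i j, i ≠ j → |inner ℝ (p i) (p j)| ≤ 1 / 2) (η : Fin 5 → ℝ) (hη : ∀ i, IsS (η i)) :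
    ‖∑ k, η k • p k‖ ^ 2 ≤ 10 := by
  have habs : ∀ i, |η i| = 1 := by
    intro i
    rcases hη i with h | h <;> rw [h] <;> norm_num
  have e : ‖∑ k, η k • p k‖ ^ 2 = ∑ i, ∑ j, η i * η j * inner ℝ (p i) (p j) := by
    rw [← real_inner_self_eq_norm_sq, sum_inner]
    refine Finset.sum_congr rfl fun i _ => ?_
    rw [inner_sum]
    refine Finset.sum_congr rfl fun j _ => ?_
    rw [inner_smul_left, inner_smul_right]
    simp only [conj_trivial]
    ring
  set b : Fin 5 → Fin 5 → ℝ := fun i j =>
    if i = j0 ∨ j = j0 then 0 else if i = j then 1 else 1 / 2 with hb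
  have hterm : ∀ i j, η i * η j * inner ℝ (p i) (p j) ≤ b i j := by
    intro i j
    simp only [hb]
    by_cases h1 : i = j0 ∨ j = j0
    · rw [if_pos h1]
      rcases h1 with h | h
      · rw [h, h0, inner_zero_left, mul_zero]
      · rw [h, h0, inner_zero_right, mul_zero]
    · rw [if_neg h1]
      by_cases h2 : i = j
      · rw [if_pos h2, h2, real_inner_self_eq_norm_sq, ← sq, isS_sq (hη j), one_mul]
        have := hp j
        nlinarith [norm_nonneg (p j)]
      · rw [if_neg h2]
        calc η i * η j * inner ℝ (p i) (p j) ≤ |η i * η j * inner ℝ (p i) (p j)| := le_abs_self _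
          _ = |inner ℝ (p i) (p j)| := by rw [abs_mul, abs_mul, habs, habs, one_mul, one_mul]
          _ ≤ 1 / 2 := hin i j h2
  have hsum : ∑ i, ∑ j, b i j = 10 := by
    simp only [hb]
    fin_cases j0 <;> simp [Fin.sum_univ_five] <;> norm_num
  rw [e, ← hsum]
  exact Finset.sum_le_sum fun i _ => Finset.sum_le_sum fun j _ => hterm i j

end Vale.Agent.Lib.P262
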