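import Vale.Agent.Lib.P262.U4Ref

/-! # P262 task P1: merging two groups with a large inner product -/

namespace Vale.Agent.Lib.P262

variable {E : Type*} [NormedAddCommGroup E] [InnerProductSpace ℝ E]

theorem IsS.mul' {a b : ℝ} (ha : IsS a) (hb : IsS b) : IsS (a * b) := by
  rcases ha with rfl | rfl <;> rcases hb with rfl | rfl <;> simp [IsS]

/-- TASK P1.  `σ := if 0 ≤ <p i, p j> then 1 else -1`; `q := p i - σ • p j` has
`‖q‖² = ‖p i‖² + ‖p j‖² - 2 |<p i, p j>| < 1` (`norm_sub_sq_real`).
`p' := Function.update (Function.update p i q) j 0`.  Zeros are kept: if `p k = 0` then `k ≠ i` (the inner product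
would vanish), so `p' k = p k` or `k = j`.  `Ref`: `θ := Function.update η j (-(σ * η i))`; compare the two sums after
taking out the terms `i` and `j`. -/
theorem pair_merge {n : ℕ} (p : Fin n → E) (hp : ∀ k, ‖p k‖ ≤ 1) (i j : Fin n) (hij : i ≠ j)
    (h : 1 / 2 < |inner ℝ (p i) (p j)|) :
    ∃ p' : Fin n → E, (∀ k, ‖p' k‖ ≤ 1) ∧ Ref p p' ∧ p' j = 0 ∧ ∀ k, p k = 0 → p' k = 0 := by
  have h1 : ‖p i‖ ^ 2 ≤ 1 := by
    have := hp i
    have h0 := norm_nonneg (p i)
    nlinarith
  have h2 : ‖p j‖ ^ 2 ≤ 1 := by
    have := hp j
    have h0 := norm_nonneg (p j)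
    nlinarith
  obtain ⟨ρ, hρ, hq⟩ := exists_sign_merge (p i) (p j) (by linarith)
  refine ⟨Function.update (Function.update p i (p i + ρ • p j)) j 0, ?_, ?_, ?_, ?_⟩
  · intro k
    by_cases hkj : k = j
    · subst hkj
      simp
    · rw [Function.update_of_ne hkj]
      by_cases hki : k = i
      · subst hki
        simpa using hq
      · rw [Function.update_of_ne hki]
        exact hp k
  · intro η hη
    refine ⟨Function.update η j (ρ * η i), ?_, ?_⟩
    · intro k
      by_cases hkj : k = j
      · subst hkj
        simpa using hρ.mul' (hη i)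
      · rw [Function.update_of_ne hkj]
        exact hη k
    · rw [← sub_eq_zero, ← Finset.sum_sub_distrib]
      have key : ∀ k : Fin n,
          η k • Function.update (Function.update p i (p i + ρ • p j)) j 0 k
            - Function.update η j (ρ * η i) k • p k
          = (if k = i then (η i * ρ) • p j else 0) - (if k = j then (ρ * η i) • p j else 0) := by
        intro k
        by_cases hkj : k = j
        · subst hkj
          have hki : k ≠ i := fun e => hij e.symm
          simp [hki]
        · rw [Function.update_of_ne hkj, Function.update_of_ne hkj]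
          by_cases hki : k = i
          · subst hki
            simp [hkj, smul_add, smul_smul]
          · rw [Function.update_of_ne hki]
            simp [hkj, hki]
      rw [Finset.sum_congr rfl (fun k _ => key k), Finset.sum_sub_distrib,
        Finset.sum_ite_eq' Finset.univ i, Finset.sum_ite_eq' Finset.univ j]
      simp [mul_comm]
  · simp
  · intro k hk
    by_cases hkj : k = j
    · subst hkj
      simp
    · rw [Function.update_of_ne hkj]
      have hki : k ≠ i := by
        rintro rfl
        rw [hk, inner_zero_left, abs_zero] at h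
        linarith
      rw [Function.update_of_ne hki]
      exact hk

end Vale.Agent.Lib.P262
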