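import Vale.Agent.Lib.P262.Upper3

/-! # P262, dimension four: refinement of families of pending groups -/

namespace Vale.Agent.Lib.P262

variable {E : Type*} [NormedAddCommGroup E] [InnerProductSpace ℝ E]

/-- Every signed sum of the family `g'` is a signed sum of the family `g`. -/
def Ref {n m : ℕ} (g : Fin n → E) (g' : Fin m → E) : Prop :=
  ∀ η : Fin m → ℝ, (∀ i, IsS (η i)) →
    ∃ θ : Fin n → ℝ, (∀ i, IsS (θ i)) ∧ ∑ i, η i • g' i = ∑ i, θ i • g i

theorem Ref.refl {n : ℕ} (g : Fin n → E) : Ref g g := fun η hη => ⟨η, hη, rfl⟩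

theorem Ref.trans {n m l : ℕ} {g : Fin n → E} {g' : Fin m → E} {g'' : Fin l → E}
    (h1 : Ref g g') (h2 : Ref g' g'') : Ref g g'' := by
  intro η hη
  obtain ⟨θ, hθ, e⟩ := h2 η hη
  obtain ⟨φ, hφ, e'⟩ := h1 θ hθ
  exact ⟨φ, hφ, e.trans e'⟩

end Vale.Agent.Lib.P262
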