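import Vale.Agent.Lib.P262.U4Ref

/-! # P262 task M2: rounding by conditional expectations -/

namespace Vale.Agent.Lib.P262

variable {E : Type*} [NormedAddCommGroup E] [InnerProductSpace ℝ E]

/-- TASK M2a. Identity `(1-z) ‖w - z h‖² + z ‖w + (1-z) h‖² = ‖w‖² + z (1-z) ‖h‖²`
(`norm_add_sq_real`, `inner_smul_right`, `norm_smul`, `ring`); if both alternatives failed the convex
combination would be too large (`nlinarith` / `by_contra`). -/
theorem round_one (w h : E) (z : ℝ) (hz0 : 0 ≤ z) (hz1 : z ≤ 1) :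
    ∃ b : ℝ, (b = 0 ∨ b = 1) ∧ ‖w + (b - z) • h‖ ^ 2 ≤ ‖w‖ ^ 2 + z * (1 - z) * ‖h‖ ^ 2 := by
  have key : ∀ t : ℝ, ‖w + t • h‖ ^ 2 = ‖w‖ ^ 2 + 2 * t * inner ℝ w h + t ^ 2 * ‖h‖ ^ 2 := by
    intro t
    rw [norm_add_sq_real, inner_smul_right, norm_smul, mul_pow, Real.norm_eq_abs, sq_abs]
    ring
  by_contra hcon
  push Not at hcon
  have h0 := hcon 0 (Or.inl rfl)
  have h1 := hcon 1 (Or.inr rfl)
  rw [key] at h0 h1
  have e0 : 0 ≤ 1 - z := by linarith
  rcases eq_or_lt_of_le hz0 with hz | hz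
  · subst hz
    simp at h0
  · have a0 := mul_le_mul_of_nonneg_left h0.le e0
    have a1 := mul_lt_mul_of_pos_left h1 hz
    nlinarith [a0, a1]

/-- TASK M2b. `Finset.induction_on S` generalising `w`: for `insert a S` first apply `round_one` to
`w, h a, z a` (value `β`), then the induction hypothesis to `w + (β - z a) • h a` (function `b`);
answer `Function.update b a β` (`Finset.sum_insert`, `Finset.sum_congr` with `a ∉ S`, `add_assoc`). -/
theorem exists_rounding {ι : Type*} [DecidableEq ι] (S : Finset ι) (h : ι → E) (z : ι → ℝ)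
    (hz0 : ∀ i, 0 ≤ z i) (hz1 : ∀ i, z i ≤ 1) (w : E) :
    ∃ b : ι → ℝ, (∀ i, b i = 0 ∨ b i = 1) ∧
      ‖w + ∑ i ∈ S, (b i - z i) • h i‖ ^ 2 ≤ ‖w‖ ^ 2 + ∑ i ∈ S, z i * (1 - z i) * ‖h i‖ ^ 2 := by
  induction S using Finset.induction_on generalizing w with
  | empty => exact ⟨fun _ => 0, fun _ => Or.inl rfl, by simp⟩
  | insert a S ha ih =>
    obtain ⟨β, hβ, hβle⟩ := round_one w (h a) (z a) (hz0 a) (hz1 a)
    obtain ⟨b, hb, hble⟩ := ih (w + (β - z a) • h a)
    refine ⟨Function.update b a β, ?_, ?_⟩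
    · intro i
      by_cases hi : i = a
      · subst hi
        simpa using hβ
      · simpa [Function.update_of_ne hi] using hb i
    · rw [Finset.sum_insert ha, Finset.sum_insert ha, Function.update_self]
      have hs : ∑ i ∈ S, (Function.update b a β i - z i) • h i = ∑ i ∈ S, (b i - z i) • h i := by
        refine Finset.sum_congr rfl ?_
        intro i hi
        have hne : i ≠ a := fun e => ha (e ▸ hi)
        rw [Function.update_of_ne hne]
      rw [hs, ← add_assoc]
      linarith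

end Vale.Agent.Lib.P262
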