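import Vale.Agent.Lib.P262.U4DepMerge
import Vale.Agent.Lib.P262.U4Clean
import Vale.Agent.Lib.P262.U4Norm

/-! # P262 task P5: the step of the deferred-decision strategy in dimension four -/

namespace Vale.Agent.Lib.P262

abbrev E4 := EuclideanSpace ℝ (Fin 4)

theorem not_linIndep_five (p : Fin 5 → E4) : ¬ LinearIndependent ℝ p := by
  intro h
  have := h.fintype_card_le_finrank
  simp at this

/-- TASK P5.  `p := Fin.snoc g u : Fin 5 → E4` (or `![g 0, g 1, g 2, g 3, u]`).  `dep_merge` gives `p1` with a zero entry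
`j0`, `clean p1` gives `p2` (still zero at `j0`, inner products `≤ 1/2`).  `g' := p2 ∘ j0.succAbove`.  For signs `η` on
`Fin 4` let `η' := j0.insertNth 1 η` (signs on `Fin 5`); `∑ k, η' k • p2 k = ∑ i, η i • g' i`
(`Fin.sum_univ_succAbove _ j0`, `Fin.insertNth_apply_succAbove`, `p2 j0 = 0`).  `norm_sq_le_ten` gives the bound, `Ref.trans`
gives `θ' : Fin 5 → ℝ` with `∑ η' • p2 = ∑ θ' • p`; `θ := θ' ∘ Fin.castSucc`, `ρ := θ' (Fin.last 4)`
(`Fin.sum_univ_castSucc`, `Fin.snoc_castSucc`, `Fin.snoc_last`). -/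
theorem step4 (g : Fin 4 → E4) (u : E4) (hg : ∀ i, ‖g i‖ ≤ 1) (hu : ‖u‖ ≤ 1) :
    ∃ g' : Fin 4 → E4, (∀ i, ‖g' i‖ ≤ 1) ∧ ∀ η : Fin 4 → ℝ, (∀ i, IsS (η i)) →
      ‖∑ i, η i • g' i‖ ^ 2 ≤ 10 ∧ ∃ (θ : Fin 4 → ℝ) (ρ : ℝ), (∀ i, IsS (θ i)) ∧ IsS ρ ∧
        ∑ i, η i • g' i = ∑ i, θ i • g i + ρ • u := by
  classical
  set p : Fin 5 → E4 := Fin.snoc (α := fun _ => E4) g u with hpdef
  have hlast : p (Fin.last 4) = u := by
    rw [hpdef]; exact Fin.snoc_last (α := fun _ => E4) u g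
  have hcast : ∀ i : Fin 4, p (Fin.castSucc i) = g i := by
    intro i
    rw [hpdef]; exact Fin.snoc_castSucc (α := fun _ => E4) u g i
  have hp : ∀ k, ‖p k‖ ≤ 1 := by
    intro k
    refine Fin.lastCases ?_ (fun i => ?_) k
    · rw [hlast]; exact hu
    · rw [hcast]; exact hg i
  obtain ⟨p1, hp1, hr1, j0, hj0⟩ := dep_merge p hp (not_linIndep_five p)
  obtain ⟨p2, hp2, hr2, hz2, hin2⟩ := clean p1 hp1
  have hz : p2 j0 = 0 := hz2 j0 hj0
  refine ⟨fun i => p2 (j0.succAbove i), fun i => hp2 _, ?_⟩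
  intro η hη
  set η' : Fin 5 → ℝ := j0.insertNth (α := fun _ => ℝ) 1 η with hη'def
  have hη' : ∀ k, IsS (η' k) := by
    intro k
    refine Fin.succAboveCases j0 ?_ (fun i => ?_) k
    · simp [hη'def, IsS]
    · simpa [hη'def] using hη i
  have hsum : ∑ k, η' k • p2 k = ∑ i, η i • p2 (j0.succAbove i) := by
    rw [Fin.sum_univ_succAbove _ j0]
    simp [hη'def, hz]
  refine ⟨?_, ?_⟩
  · rw [← hsum]
    exact norm_sq_le_ten p2 hp2 j0 hz hin2 η' hη'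
  · obtain ⟨θ', hθ', e⟩ := (Ref.trans hr1 hr2) η' hη'
    refine ⟨fun i => θ' (Fin.castSucc i), θ' (Fin.last 4), fun i => hθ' _, hθ' _, ?_⟩
    rw [← hsum, e, Fin.sum_univ_castSucc, hlast]
    simp only [hcast]

end Vale.Agent.Lib.P262
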