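import Vale.Agent.Lib.P262.Basic

open scoped ENNReal

namespace Vale.Agent.Lib.P262

theorem gram_merge (a1 a2 a3 c12 c13 c23 : ℝ) (h1 : a1 ≤ 1) (h2 : a2 ≤ 1) (h3 : a3 ≤ 1)
    (hdet : a1 * a2 * a3 + 2 * c12 * c13 * c23 - a1 * c23 ^ 2 - a2 * c13 ^ 2 - a3 * c12 ^ 2 = 0) :
    a1 + a2 - 2 * |c12| ≤ 1 ∨ a1 + a3 - 2 * |c13| ≤ 1 ∨ a2 + a3 - 2 * |c23| ≤ 1 := by
  by_contra hcon
  simp only [not_or, not_le] at hcon
  obtain ⟨k12, k13, k23⟩ := hcon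
  set p := |c12| with hp
  set q := |c13| with hq
  set r := |c23| with hr
  have p0 : 0 ≤ p := abs_nonneg _
  have q0 : 0 ≤ q := abs_nonneg _
  have r0 : 0 ≤ r := abs_nonneg _
  have pa1 : p < a1 / 2 := by linarith
  have pa2 : p < a2 / 2 := by linarith
  have qa1 : q < a1 / 2 := by linarith
  have qa3 : q < a3 / 2 := by linarith
  have ra2 : r < a2 / 2 := by linarith
  have ra3 : r < a3 / 2 := by linarith
  have a1pos : 0 < a1 := by linarith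
  have a2pos : 0 < a2 := by linarith
  have a3pos : 0 < a3 := by linarith
  have pp : p ^ 2 < a1 / 2 * (a2 / 2) := by
    rw [sq]; exact mul_lt_mul'' pa1 pa2 p0 p0
  have qq : q ^ 2 < a1 / 2 * (a3 / 2) := by
    rw [sq]; exact mul_lt_mul'' qa1 qa3 q0 q0
  have rr : r ^ 2 < a2 / 2 * (a3 / 2) := by
    rw [sq]; exact mul_lt_mul'' ra2 ra3 r0 r0
  have pq : p * q < a1 / 2 * (a3 / 2) := mul_lt_mul'' pa1 qa3 p0 q0
  have pqr : p * q * r < a1 / 2 * (a3 / 2) * (a2 / 2) :=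
    mul_lt_mul'' pq ra2 (mul_nonneg p0 q0) r0
  have e12 : c12 ^ 2 = p ^ 2 := (sq_abs c12).symm
  have e13 : c13 ^ 2 = q ^ 2 := (sq_abs c13).symm
  have e23 : c23 ^ 2 = r ^ 2 := (sq_abs c23).symm
  have eabs : -(p * q * r) ≤ c12 * c13 * c23 := by
    have : |c12 * c13 * c23| = p * q * r := by rw [abs_mul, abs_mul]
    rw [← this]
    exact neg_abs_le _
  have t1 : a1 * r ^ 2 < a1 * (a2 / 2 * (a3 / 2)) := mul_lt_mul_of_pos_left rr a1pos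
  have t2 : a2 * q ^ 2 < a2 * (a1 / 2 * (a3 / 2)) := mul_lt_mul_of_pos_left qq a2pos
  have t3 : a3 * p ^ 2 < a3 * (a1 / 2 * (a2 / 2)) := mul_lt_mul_of_pos_left pp a3pos
  rw [e12, e13, e23] at hdet
  nlinarith

abbrev E2 := EuclideanSpace ℝ (Fin 2)

theorem gram_det_E2 (u1 u2 u3 : E2) :
    ‖u1‖ ^ 2 * ‖u2‖ ^ 2 * ‖u3‖ ^ 2 + 2 * inner ℝ u1 u2 * inner ℝ u1 u3 * inner ℝ u2 u3
      - ‖u1‖ ^ 2 * (inner ℝ u2 u3) ^ 2 - ‖u2‖ ^ 2 * (inner ℝ u1 u3) ^ 2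
      - ‖u3‖ ^ 2 * (inner ℝ u1 u2) ^ 2 = 0 := by
  simp only [EuclideanSpace.norm_sq_eq, PiLp.inner_apply, Fin.sum_univ_two, Real.norm_eq_abs, sq_abs,
    RCLike.inner_apply, conj_trivial]
  ring

def IsS (η : ℝ) : Prop := η = 1 ∨ η = -1

theorem exists_sign_merge {E : Type*} [NormedAddCommGroup E] [InnerProductSpace ℝ E] (u w : E)
    (h : ‖u‖ ^ 2 + ‖w‖ ^ 2 - 2 * |inner ℝ u w| ≤ 1) : ∃ ρ : ℝ, IsS ρ ∧ ‖u + ρ • w‖ ≤ 1 := by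
  by_cases hc : 0 ≤ inner ℝ u w
  · refine ⟨-1, Or.inr rfl, ?_⟩
    rw [abs_of_nonneg hc] at h
    have : ‖u + (-1 : ℝ) • w‖ ^ 2 ≤ 1 := by
      rw [norm_add_sq_real, inner_smul_right, norm_smul]
      simp only [norm_neg, norm_one, one_mul]
      linarith
    nlinarith [norm_nonneg (u + (-1 : ℝ) • w)]
  · refine ⟨1, Or.inl rfl, ?_⟩
    rw [not_le] at hc
    rw [abs_of_neg hc] at h
    have : ‖u + (1 : ℝ) • w‖ ^ 2 ≤ 1 := by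
      rw [norm_add_sq_real, inner_smul_right, norm_smul]
      simp only [norm_one, one_mul]
      linarith
    nlinarith [norm_nonneg (u + (1 : ℝ) • w)]

theorem IsS.mul {a b : ℝ} (ha : IsS a) (hb : IsS b) : IsS (a * b) := by
  rcases ha with rfl | rfl <;> rcases hb with rfl | rfl <;> simp [IsS]

theorem IsS.neg {a : ℝ} (ha : IsS a) : IsS (-a) := by
  rcases ha with rfl | rfl <;> simp [IsS]

theorem second_stage {E : Type*} [NormedAddCommGroup E] [InnerProductSpace ℝ E] (a b : E)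
    (ha : ‖a‖ ≤ 1) (hb : ‖b‖ ≤ 1) : ∃ a' b' : E, ‖a'‖ ≤ 1 ∧ ‖b'‖ ≤ 1 ∧
      ∀ η0 η1 : ℝ, IsS η0 → IsS η1 → ‖η0 • a' + η1 • b'‖ ^ 2 ≤ 3 ∧
        ∃ θ0 θ1 : ℝ, IsS θ0 ∧ IsS θ1 ∧ η0 • a' + η1 • b' = θ0 • a + θ1 • b := by
  have hpar : ‖a + b‖ ^ 2 + ‖a - b‖ ^ 2 = 2 * ‖a‖ ^ 2 + 2 * ‖b‖ ^ 2 := by
    rw [norm_add_sq_real, norm_sub_sq_real]; ring
  have ha2 : ‖a‖ ^ 2 ≤ 1 := by nlinarith [norm_nonneg a]
  have hb2 : ‖b‖ ^ 2 ≤ 1 := by nlinarith [norm_nonneg b]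
  by_cases h1 : ‖a + b‖ ^ 2 ≤ 3
  · by_cases h2 : ‖a - b‖ ^ 2 ≤ 3
    · refine ⟨a, b, ha, hb, ?_⟩
      intro η0 η1 h0 h1'
      refine ⟨?_, η0, η1, h0, h1', rfl⟩
      rcases h0 with rfl | rfl <;> rcases h1' with rfl | rfl
      · simpa using h1
      · simpa [← sub_eq_add_neg] using h2
      · have : (-1 : ℝ) • a + (1 : ℝ) • b = -(a - b) := by simp; abel
        rw [this, norm_neg]; exact h2
      · have : (-1 : ℝ) • a + (-1 : ℝ) • b = -(a + b) := by simp; abel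
        rw [this, norm_neg]; exact h1
    · rw [not_le] at h2
      have hs : ‖a + b‖ ^ 2 ≤ 1 := by linarith
      refine ⟨a + b, 0, by nlinarith [norm_nonneg (a + b)], by simp, ?_⟩
      intro η0 η1 h0 _
      refine ⟨?_, η0, η0, h0, h0, by simp⟩
      rw [smul_zero, add_zero, norm_smul]
      rcases h0 with rfl | rfl <;> simp <;> linarith
  · rw [not_le] at h1
    have hs : ‖a - b‖ ^ 2 ≤ 1 := by linarith
    refine ⟨a - b, 0, by nlinarith [norm_nonneg (a - b)], by simp, ?_⟩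
    intro η0 η1 h0 _
    refine ⟨?_, η0, -η0, h0, h0.neg, by simp [sub_eq_add_neg]⟩
    rw [smul_zero, add_zero, norm_smul]
    rcases h0 with rfl | rfl <;> simp <;> linarith

theorem first_stage (g0 g1 u : E2) (h0 : ‖g0‖ ≤ 1) (h1 : ‖g1‖ ≤ 1) (hu : ‖u‖ ≤ 1) :
    ∃ a b : E2, ‖a‖ ≤ 1 ∧ ‖b‖ ≤ 1 ∧ ∀ η0 η1 : ℝ, IsS η0 → IsS η1 →
      ∃ θ0 θ1 ρ : ℝ, IsS θ0 ∧ IsS θ1 ∧ IsS ρ ∧ η0 • a + η1 • b = θ0 • g0 + θ1 • g1 + ρ • u := by
  have k0 : ‖g0‖ ^ 2 ≤ 1 := by nlinarith [norm_nonneg g0]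
  have k1 : ‖g1‖ ^ 2 ≤ 1 := by nlinarith [norm_nonneg g1]
  have ku : ‖u‖ ^ 2 ≤ 1 := by nlinarith [norm_nonneg u]
  rcases gram_merge _ _ _ _ _ _ k0 k1 ku (gram_det_E2 g0 g1 u) with h | h | h
  · obtain ⟨ρ, hρ, hn⟩ := exists_sign_merge g0 g1 h
    refine ⟨g0 + ρ • g1, u, hn, hu, ?_⟩
    intro η0 η1 e0 e1
    exact ⟨η0, η0 * ρ, η1, e0, e0.mul hρ, e1, by rw [smul_add, smul_smul]⟩
  · obtain ⟨ρ, hρ, hn⟩ := exists_sign_merge g0 u h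
    refine ⟨g0 + ρ • u, g1, hn, h1, ?_⟩
    intro η0 η1 e0 e1
    exact ⟨η0, η1, η0 * ρ, e0, e1, e0.mul hρ, by rw [smul_add, smul_smul]; abel⟩
  · obtain ⟨ρ, hρ, hn⟩ := exists_sign_merge g1 u h
    refine ⟨g0, g1 + ρ • u, h0, hn, ?_⟩
    intro η0 η1 e0 e1
    exact ⟨η0, η1, η1 * ρ, e0, e1, e1.mul hρ, by rw [smul_add, smul_smul]; abel⟩

theorem step2 (g0 g1 u : E2) (h0 : ‖g0‖ ≤ 1) (h1 : ‖g1‖ ≤ 1) (hu : ‖u‖ ≤ 1) :
    ∃ a b : E2, ‖a‖ ≤ 1 ∧ ‖b‖ ≤ 1 ∧ ∀ η0 η1 : ℝ, IsS η0 → IsS η1 → ‖η0 • a + η1 • b‖ ^ 2 ≤ 3 ∧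
      ∃ θ0 θ1 ρ : ℝ, IsS θ0 ∧ IsS θ1 ∧ IsS ρ ∧ η0 • a + η1 • b = θ0 • g0 + θ1 • g1 + ρ • u := by
  obtain ⟨a, b, ha, hb, hab⟩ := first_stage g0 g1 u h0 h1 hu
  obtain ⟨a', b', ha', hb', hab'⟩ := second_stage a b ha hb
  refine ⟨a', b', ha', hb', ?_⟩
  intro η0 η1 e0 e1
  obtain ⟨hn, θ0, θ1, t0, t1, heq⟩ := hab' η0 η1 e0 e1
  obtain ⟨φ0, φ1, ρ, f0, f1, fr, heq2⟩ := hab θ0 θ1 t0 t1
  exact ⟨hn, φ0, φ1, ρ, f0, f1, fr, heq.trans heq2⟩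

theorem balance2 (v : ℕ → E2) (hv : ∀ i, ‖v i‖ ≤ 1) : ∀ k : ℕ, ∃ g0 g1 : E2, ‖g0‖ ≤ 1 ∧ ‖g1‖ ≤ 1 ∧
    ∀ η0 η1 : ℝ, IsS η0 → IsS η1 → ∃ ε : ℕ → ℝ, (∀ i, IsS (ε i)) ∧
      (∀ j ≤ k, ‖∑ i ∈ Finset.range j, ε i • v i‖ ^ 2 ≤ 3) ∧
      ∑ i ∈ Finset.range k, ε i • v i = η0 • g0 + η1 • g1 := by
  intro k
  induction k with
  | zero =>
    refine ⟨0, 0, by simp, by simp, ?_⟩
    intro η0 η1 _ _
    refine ⟨fun _ => 1, fun _ => Or.inl rfl, ?_, by simp⟩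
    intro j hj
    have : j = 0 := by omega
    subst this
    simp
  | succ k ih =>
    obtain ⟨g0, g1, h0, h1, hg⟩ := ih
    obtain ⟨a, b, ha, hb, hab⟩ := step2 g0 g1 (v k) h0 h1 (hv k)
    refine ⟨a, b, ha, hb, ?_⟩
    intro η0 η1 e0 e1
    obtain ⟨hn, θ0, θ1, ρ, t0, t1, tr, heq⟩ := hab η0 η1 e0 e1
    obtain ⟨ε, hε, hgood, hsum⟩ := hg θ0 θ1 t0 t1
    have hsame : ∀ j ≤ k, ∑ i ∈ Finset.range j, Function.update ε k ρ i • v i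
        = ∑ i ∈ Finset.range j, ε i • v i := by
      intro j hj
      apply Finset.sum_congr rfl
      intro i hi
      rw [Finset.mem_range] at hi
      rw [Function.update_of_ne (by omega)]
    have hlast : ∑ i ∈ Finset.range (k + 1), Function.update ε k ρ i • v i = η0 • a + η1 • b := by
      rw [Finset.sum_range_succ, hsame k le_rfl, hsum, Function.update_self, heq]
    refine ⟨Function.update ε k ρ, ?_, ?_, hlast⟩
    · intro i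
      by_cases hi : i = k
      · subst hi; rw [Function.update_self]; exact tr
      · rw [Function.update_of_ne hi]; exact hε i
    · intro j hj
      by_cases hjk : j ≤ k
      · rw [hsame j hjk]; exact hgood j hjk
      · have : j = k + 1 := by omega
        subst this
        rw [hlast]; exact hn

theorem upper2 (N : ℕ) (v : Fin N → E2) (hv : ∀ i, ‖v i‖ ≤ 1) :
    ∃ ε : Fin N → ℝ, (∀ i, ε i = 1 ∨ ε i = -1) ∧
      ∀ k : Fin (N + 1), ‖∑ i ∈ Finset.univ.filter (fun i : Fin N => i.val < k.val), ε i • v i‖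
        ≤ Real.sqrt 3 := by
  set v' : ℕ → E2 := fun j => if h : j < N then v ⟨j, h⟩ else 0 with hv'
  have hv'' : ∀ j, ‖v' j‖ ≤ 1 := by
    intro j
    simp only [hv']
    split_ifs with h
    · exact hv _
    · simp
  obtain ⟨g0, g1, _, _, hg⟩ := balance2 v' hv'' N
  obtain ⟨ε, hε, hgood, _⟩ := hg 1 1 (Or.inl rfl) (Or.inl rfl)
  refine ⟨fun i => ε i.val, fun i => hε i.val, ?_⟩
  intro k
  have hk : k.val ≤ N := Nat.le_of_lt_succ k.isLt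
  have hsum : ∑ i ∈ Finset.univ.filter (fun i : Fin N => i.val < k.val), ε i.val • v i
      = ∑ j ∈ Finset.range k.val, ε j • v' j := by
    rw [← sum_fin_filter_eq N k.val hk (fun j => ε j • v' j)]
    apply Finset.sum_congr rfl
    intro i _
    simp [hv']
  rw [hsum]
  exact Real.le_sqrt_of_sq_le (hgood k.val hk)

theorem sigma_two_le : sigma 2 ≤ ENNReal.ofReal (Real.sqrt 3) :=
  sigma_le_of_balancing upper2

end Vale.Agent.Lib.P262
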