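import Vale.Agent.Lib.P262.Upper2

open scoped ENNReal

namespace Vale.Agent.Lib.P262

section abstract

variable {E : Type*} [NormedAddCommGroup E] [InnerProductSpace ℝ E]

/-- The deferred-decision strategy, abstractly: if any `m` groups in the unit ball together with a
new vector of the unit ball can be regrouped into `m` groups in the unit ball all of whose signed
sums are signed sums of the old data and have squared norm at most `T`, then every sequence in the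
unit ball has signs keeping all initial sums within squared norm `T`. -/
theorem balance_of_step {m : ℕ} {T : ℝ} (hT : 0 ≤ T)
    (step : ∀ (g : Fin m → E) (u : E), (∀ i, ‖g i‖ ≤ 1) → ‖u‖ ≤ 1 →
      ∃ g' : Fin m → E, (∀ i, ‖g' i‖ ≤ 1) ∧ ∀ η : Fin m → ℝ, (∀ i, IsS (η i)) →
        ‖∑ i, η i • g' i‖ ^ 2 ≤ T ∧ ∃ (θ : Fin m → ℝ) (ρ : ℝ), (∀ i, IsS (θ i)) ∧ IsS ρ ∧
          ∑ i, η i • g' i = ∑ i, θ i • g i + ρ • u)
    (v : ℕ → E) (hv : ∀ i, ‖v i‖ ≤ 1) : ∀ k : ℕ, ∃ g : Fin m → E, (∀ i, ‖g i‖ ≤ 1) ∧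
      ∀ η : Fin m → ℝ, (∀ i, IsS (η i)) → ∃ ε : ℕ → ℝ, (∀ i, IsS (ε i)) ∧
        (∀ j ≤ k, ‖∑ i ∈ Finset.range j, ε i • v i‖ ^ 2 ≤ T) ∧
        ∑ i ∈ Finset.range k, ε i • v i = ∑ i, η i • g i := by
  intro k
  induction k with
  | zero =>
    refine ⟨fun _ => 0, by simp, ?_⟩
    intro η _
    refine ⟨fun _ => 1, fun _ => Or.inl rfl, ?_, by simp⟩
    intro j hj
    have : j = 0 := by omega
    subst this
    simpa using hT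
  | succ k ih =>
    obtain ⟨g, hg1, hg⟩ := ih
    obtain ⟨a, ha, hab⟩ := step g (v k) hg1 (hv k)
    refine ⟨a, ha, ?_⟩
    intro η e
    obtain ⟨hn, θ, ρ, t, tr, heq⟩ := hab η e
    obtain ⟨ε, hε, hgood, hsum⟩ := hg θ t
    have hsame : ∀ j ≤ k, ∑ i ∈ Finset.range j, Function.update ε k ρ i • v i
        = ∑ i ∈ Finset.range j, ε i • v i := by
      intro j hj
      apply Finset.sum_congr rfl
      intro i hi
      rw [Finset.mem_range] at hi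
      rw [Function.update_of_ne (by omega)]
    have hlast : ∑ i ∈ Finset.range (k + 1), Function.update ε k ρ i • v i
        = ∑ i, η i • a i := by
      rw [Finset.sum_range_succ, hsame k le_rfl, hsum, Function.update_self, heq]
    refine ⟨Function.update ε k ρ, ?_, ?_, hlast⟩
    · intro i
      by_cases hi : i = k
      · subst hi; rw [Function.update_self]; exact tr
      · rw [Function.update_of_ne hi]; exact hε i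
    · intro j hj
      by_cases hjk : j ≤ k
      · rw [hsame j hjk]; exact hgood j hjk
      · have : j = k + 1 := by omega
        subst this
        rw [hlast]; exact hn

theorem norm_sq_comb3 (h1 h2 h3 : E) (x1 x2 x3 : ℝ) :
    ‖x1 • h1 + x2 • h2 + x3 • h3‖ ^ 2 = x1 ^ 2 * ‖h1‖ ^ 2 + x2 ^ 2 * ‖h2‖ ^ 2 + x3 ^ 2 * ‖h3‖ ^ 2
      + 2 * x1 * x2 * inner ℝ h1 h2 + 2 * x1 * x3 * inner ℝ h1 h3
      + 2 * x2 * x3 * inner ℝ h2 h3 := by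
  rw [norm_add_sq_real, norm_add_sq_real, inner_add_left]
  simp only [inner_smul_left, inner_smul_right, norm_smul, mul_pow, Real.norm_eq_abs, sq_abs,
    conj_trivial]
  ring


theorem zero_of_D (z1 z2 z3 : ℝ) (z1n : 0 ≤ z1) (z2n : 0 ≤ z2) (z3n : 0 ≤ z3)
    (D : (z1 - z2) ^ 2 + (z1 - z3) ^ 2 + (z2 - z3) ^ 2 + 2 * (z1 * z2 * z3) ≤ 0) :
    z1 = 0 ∧ z2 = 0 ∧ z3 = 0 := by
  have p3 : 0 ≤ z1 * z2 * z3 := mul_nonneg (mul_nonneg z1n z2n) z3n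
  have e12 : z1 = z2 := by
    have h : (z1 - z2) ^ 2 ≤ 0 := by linarith [sq_nonneg (z1 - z3), sq_nonneg (z2 - z3)]
    have := pow_eq_zero_iff (two_ne_zero) |>.1 (le_antisymm h (sq_nonneg _))
    linarith
  have e13 : z1 = z3 := by
    have h : (z1 - z3) ^ 2 ≤ 0 := by linarith [sq_nonneg (z1 - z2), sq_nonneg (z2 - z3)]
    have := pow_eq_zero_iff (two_ne_zero) |>.1 (le_antisymm h (sq_nonneg _))
    linarith
  subst e12 e13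
  have h3' : z1 ^ 3 ≤ 0 := by
    have : z1 ^ 3 = z1 * z1 * z1 := by ring
    rw [this]
    linarith [sq_nonneg (z1 - z1)]
  have hz : z1 = 0 := by
    have h3 : z1 ^ 3 = 0 := le_antisymm h3' (by positivity)
    exact pow_eq_zero_iff (three_ne_zero) |>.1 h3
  exact ⟨hz, hz, hz⟩

theorem merge_D (a1 a2 a3 c12 c13 c23 z1 z2 z3 : ℝ)
    (ha1 : a1 ≤ 1) (ha2 : a2 ≤ 1) (ha3 : a3 ≤ 1)
    (z1n : 0 ≤ z1) (z2n : 0 ≤ z2) (z3n : 0 ≤ z3) (z1l : z1 ≤ 1) (z2l : z2 ≤ 1) (z3l : z3 ≤ 1)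
    (Q : ℝ → ℝ → ℝ → ℝ)
    (hQ : ∀ x1 x2 x3, Q x1 x2 x3 = x1 ^ 2 * a1 + x2 ^ 2 * a2 + x3 ^ 2 * a3
      + 2 * x1 * x2 * c12 + 2 * x1 * x3 * c13 + 2 * x2 * x3 * c23)
    (hQ0 : 0 ≤ Q z1 z2 z3)
    (k1 : 1 < Q (z1 - 1) z2 z3) (k2 : 1 < Q z1 (z2 - 1) z3) (k3 : 1 < Q z1 z2 (z3 - 1))
    (k12 : 1 < Q (z1 - 1) (z2 - 1) z3) (k13 : 1 < Q (z1 - 1) z2 (z3 - 1))
    (k23 : 1 < Q z1 (z2 - 1) (z3 - 1)) (k123 : 1 < Q (z1 - 1) (z2 - 1) (z3 - 1)) :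
    (z1 - z2) ^ 2 + (z1 - z3) ^ 2 + (z2 - z3) ^ 2 + 2 * (z1 * z2 * z3) ≤ 0 := by
  rw [hQ] at hQ0 k1 k2 k3 k12 k13 k23 k123
  have y1 : 0 ≤ 1 - z1 := by linarith
  have y2 : 0 ≤ 1 - z2 := by linarith
  have y3 : 0 ≤ 1 - z3 := by linarith
  have t0 := mul_nonneg (mul_nonneg (mul_nonneg y1 y2) y3) hQ0
  have t1 := mul_nonneg (mul_nonneg (mul_nonneg z1n y2) y3) (sub_nonneg.2 k1.le)
  have t2 := mul_nonneg (mul_nonneg (mul_nonneg y1 z2n) y3) (sub_nonneg.2 k2.le)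
  have t3 := mul_nonneg (mul_nonneg (mul_nonneg y1 y2) z3n) (sub_nonneg.2 k3.le)
  have t12 := mul_nonneg (mul_nonneg (mul_nonneg z1n z2n) y3) (sub_nonneg.2 k12.le)
  have t13 := mul_nonneg (mul_nonneg (mul_nonneg z1n y2) z3n) (sub_nonneg.2 k13.le)
  have t23 := mul_nonneg (mul_nonneg (mul_nonneg y1 z2n) z3n) (sub_nonneg.2 k23.le)
  have t123 := mul_nonneg (mul_nonneg (mul_nonneg z1n z2n) z3n) (sub_nonneg.2 k123.le)
  have u1 := mul_nonneg (mul_nonneg z1n y1) (sub_nonneg.2 ha1)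
  have u2 := mul_nonneg (mul_nonneg z2n y2) (sub_nonneg.2 ha2)
  have u3 := mul_nonneg (mul_nonneg z3n y3) (sub_nonneg.2 ha3)
  linear_combination 2 * t0 + 2 * t1 + 2 * t2 + 2 * t3 + 2 * t12 + 2 * t13 + 2 * t23 + 2 * t123
    + 2 * u1 + 2 * u2 + 2 * u3

def IsB (s : ℝ) : Prop := s = 0 ∨ s = 1

/-- Rounding lemma: a point `z1 h1 + z2 h2 + z3 h3` of the box spanned by three vectors of the
unit ball is within distance one of a vertex other than the origin. -/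
theorem merge_core (h1 h2 h3 : E) (z1 z2 z3 : ℝ) (n1 : ‖h1‖ ≤ 1) (n2 : ‖h2‖ ≤ 1) (n3 : ‖h3‖ ≤ 1)
    (z1n : 0 ≤ z1) (z2n : 0 ≤ z2) (z3n : 0 ≤ z3) (z1l : z1 ≤ 1) (z2l : z2 ≤ 1) (z3l : z3 ≤ 1) :
    ∃ s1 s2 s3 : ℝ, IsB s1 ∧ IsB s2 ∧ IsB s3 ∧ (s1 = 1 ∨ s2 = 1 ∨ s3 = 1) ∧
      ‖(z1 - s1) • h1 + (z2 - s2) • h2 + (z3 - s3) • h3‖ ≤ 1 := by
  by_contra hcon
  have key : ∀ s1 s2 s3 : ℝ, IsB s1 → IsB s2 → IsB s3 → (s1 = 1 ∨ s2 = 1 ∨ s3 = 1) →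
      1 < ‖(z1 - s1) • h1 + (z2 - s2) • h2 + (z3 - s3) • h3‖ ^ 2 := by
    intro s1 s2 s3 b1 b2 b3 hs
    by_contra hle
    rw [not_lt] at hle
    apply hcon
    refine ⟨s1, s2, s3, b1, b2, b3, hs, ?_⟩
    nlinarith [norm_nonneg ((z1 - s1) • h1 + (z2 - s2) • h2 + (z3 - s3) • h3)]
  have a1 : ‖h1‖ ^ 2 ≤ 1 := by nlinarith [norm_nonneg h1]
  have a2 : ‖h2‖ ^ 2 ≤ 1 := by nlinarith [norm_nonneg h2]
  have a3 : ‖h3‖ ^ 2 ≤ 1 := by nlinarith [norm_nonneg h3]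
  have o : IsB 0 := Or.inl rfl
  have i : IsB 1 := Or.inr rfl
  have D := merge_D _ _ _ (inner ℝ h1 h2) (inner ℝ h1 h3) (inner ℝ h2 h3) z1 z2 z3 a1 a2 a3
    z1n z2n z3n z1l z2l z3l (fun x1 x2 x3 => ‖x1 • h1 + x2 • h2 + x3 • h3‖ ^ 2)
    (fun x1 x2 x3 => norm_sq_comb3 h1 h2 h3 x1 x2 x3) (by positivity)
    (by simpa using key 1 0 0 i o o (by simp)) (by simpa using key 0 1 0 o i o (by simp))
    (by simpa using key 0 0 1 o o i (by simp)) (by simpa using key 1 1 0 i i o (by simp))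
    (by simpa using key 1 0 1 i o i (by simp)) (by simpa using key 0 1 1 o i i (by simp))
    (by simpa using key 1 1 1 i i i (by simp))
  obtain ⟨rfl, rfl, rfl⟩ := zero_of_D z1 z2 z3 z1n z2n z3n D
  have := key 1 0 0 i o o (by simp)
  simp at this
  linarith

def R4 (x a b c d : E) : Prop :=
  ∃ θ0 θ1 θ2 θ3 : ℝ, IsS θ0 ∧ IsS θ1 ∧ IsS θ2 ∧ IsS θ3 ∧ x = θ0 • a + θ1 • b + θ2 • c + θ3 • d

theorem isS_mix {η0 η1 s : ℝ} (h0 : IsS η0) (h1 : IsS η1) (hs : IsB s) :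
    IsS (-η0 * s + η1 * (1 - s)) := by
  rcases hs with rfl | rfl
  · simpa using h1
  · simpa using h0.neg

theorem norm_mix {h : E} {s : ℝ} (hs : IsB s) (hn : ‖h‖ ≤ 1) : ‖(1 - s) • h‖ ≤ 1 := by
  rcases hs with rfl | rfl <;> simp [hn]

/-- Regrouping four vectors, one of which is in the box spanned by the other three. -/
theorem regroup_box (h1 h2 h3 : E) (z1 z2 z3 : ℝ) (n1 : ‖h1‖ ≤ 1) (n2 : ‖h2‖ ≤ 1) (n3 : ‖h3‖ ≤ 1)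
    (z1n : 0 ≤ z1) (z2n : 0 ≤ z2) (z3n : 0 ≤ z3) (z1l : z1 ≤ 1) (z2l : z2 ≤ 1) (z3l : z3 ≤ 1) :
    ∃ a b c : E, ‖a‖ ≤ 1 ∧ ‖b‖ ≤ 1 ∧ ‖c‖ ≤ 1 ∧ ∀ η0 η1 η2 : ℝ, IsS η0 → IsS η1 → IsS η2 →
      R4 (η0 • a + η1 • b + η2 • c) (z1 • h1 + z2 • h2 + z3 • h3) h1 h2 h3 := by
  obtain ⟨s1, s2, s3, b1, b2, b3, hs, hn⟩ := merge_core h1 h2 h3 z1 z2 z3 n1 n2 n3 z1n z2n z3n
    z1l z2l z3l
  rcases hs with rfl | rfl | rfl
  · refine ⟨_, (1 - s2) • h2, (1 - s3) • h3, hn, norm_mix b2 n2, norm_mix b3 n3, ?_⟩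
    intro η0 η1 η2 e0 e1 e2
    refine ⟨η0, -η0, -η0 * s2 + η1 * (1 - s2), -η0 * s3 + η2 * (1 - s3), e0, e0.neg,
      isS_mix e0 e1 b2, isS_mix e0 e2 b3, ?_⟩
    module
  · refine ⟨_, (1 - s1) • h1, (1 - s3) • h3, hn, norm_mix b1 n1, norm_mix b3 n3, ?_⟩
    intro η0 η1 η2 e0 e1 e2
    refine ⟨η0, -η0 * s1 + η1 * (1 - s1), -η0, -η0 * s3 + η2 * (1 - s3), e0,
      isS_mix e0 e1 b1, e0.neg, isS_mix e0 e2 b3, ?_⟩
    module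
  · refine ⟨_, (1 - s1) • h1, (1 - s2) • h2, hn, norm_mix b1 n1, norm_mix b2 n2, ?_⟩
    intro η0 η1 η2 e0 e1 e2
    refine ⟨η0, -η0 * s1 + η1 * (1 - s1), -η0 * s2 + η2 * (1 - s2), -η0, e0,
      isS_mix e0 e1 b1, isS_mix e0 e2 b2, e0.neg, ?_⟩
    module

theorem exists_abs_sign (μ : ℝ) (h : |μ| ≤ 1) : ∃ z σ : ℝ, 0 ≤ z ∧ z ≤ 1 ∧ IsS σ ∧ μ = z * σ := by
  by_cases h0 : 0 ≤ μ
  · exact ⟨μ, 1, h0, by rwa [abs_of_nonneg h0] at h, Or.inl rfl, by ring⟩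
  · rw [not_le] at h0
    exact ⟨-μ, -1, by linarith, by rwa [abs_of_neg h0] at h, Or.inr rfl, by ring⟩

theorem norm_isS_smul {σ : ℝ} (hσ : IsS σ) (p : E) : ‖σ • p‖ = ‖p‖ := by
  rcases hσ with rfl | rfl <;> simp

/-- Regrouping four vectors, one of which is a combination of the others with coefficients in
`[-1,1]`. -/
theorem regroup_dep (p0 p1 p2 p3 : E) (μ1 μ2 μ3 : ℝ) (n1 : ‖p1‖ ≤ 1) (n2 : ‖p2‖ ≤ 1)
    (n3 : ‖p3‖ ≤ 1) (m1 : |μ1| ≤ 1) (m2 : |μ2| ≤ 1) (m3 : |μ3| ≤ 1)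
    (hp : p0 = μ1 • p1 + μ2 • p2 + μ3 • p3) :
    ∃ a b c : E, ‖a‖ ≤ 1 ∧ ‖b‖ ≤ 1 ∧ ‖c‖ ≤ 1 ∧ ∀ η0 η1 η2 : ℝ, IsS η0 → IsS η1 → IsS η2 →
      R4 (η0 • a + η1 • b + η2 • c) p0 p1 p2 p3 := by
  obtain ⟨z1, σ1, z1n, z1l, s1, rfl⟩ := exists_abs_sign μ1 m1
  obtain ⟨z2, σ2, z2n, z2l, s2, rfl⟩ := exists_abs_sign μ2 m2
  obtain ⟨z3, σ3, z3n, z3l, s3, rfl⟩ := exists_abs_sign μ3 m3
  obtain ⟨a, b, c, ha, hb, hc, H⟩ := regroup_box (σ1 • p1) (σ2 • p2) (σ3 • p3) z1 z2 z3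
    (by rwa [norm_isS_smul s1]) (by rwa [norm_isS_smul s2]) (by rwa [norm_isS_smul s3])
    z1n z2n z3n z1l z2l z3l
  refine ⟨a, b, c, ha, hb, hc, ?_⟩
  intro η0 η1 η2 e0 e1 e2
  obtain ⟨θ0, θ1, θ2, θ3, t0, t1, t2, t3, heq⟩ := H η0 η1 η2 e0 e1 e2
  refine ⟨θ0, θ1 * σ1, θ2 * σ2, θ3 * σ3, t0, t1.mul s1, t2.mul s2, t3.mul s3, ?_⟩
  rw [heq, hp]
  module

end abstract

section
variable {E : Type*} [NormedAddCommGroup E] [InnerProductSpace ℝ E]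

theorem solve_dep (x0 x1 x2 x3 : ℝ) (p0 p1 p2 p3 : E)
    (h : x0 • p0 + x1 • p1 + x2 • p2 + x3 • p3 = 0) (hx : x0 ≠ 0) :
    p0 = (-x1 / x0) • p1 + (-x2 / x0) • p2 + (-x3 / x0) • p3 := by
  have h1 : x0 • p0 = -(x1 • p1 + x2 • p2 + x3 • p3) := by
    rw [eq_neg_iff_add_eq_zero, ← h]; abel
  have h2 : p0 = x0⁻¹ • (x0 • p0) := by rw [smul_smul, inv_mul_cancel₀ hx, one_smul]
  rw [h2, h1]
  simp only [div_eq_mul_inv]
  module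

theorem abs_div_le_one {x y : ℝ} (h : |x| ≤ |y|) (hy : y ≠ 0) : |-x / y| ≤ 1 := by
  rw [abs_div, abs_neg, div_le_one (abs_pos.2 hy)]
  exact h

theorem R4.perm1 {x a b c d : E} (h : R4 x b a c d) : R4 x a b c d := by
  obtain ⟨θ0, θ1, θ2, θ3, t0, t1, t2, t3, rfl⟩ := h
  exact ⟨θ1, θ0, θ2, θ3, t1, t0, t2, t3, by abel⟩

theorem R4.perm2 {x a b c d : E} (h : R4 x c a b d) : R4 x a b c d := by
  obtain ⟨θ0, θ1, θ2, θ3, t0, t1, t2, t3, rfl⟩ := h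
  exact ⟨θ1, θ2, θ0, θ3, t1, t2, t0, t3, by abel⟩

theorem R4.perm3 {x a b c d : E} (h : R4 x d a b c) : R4 x a b c d := by
  obtain ⟨θ0, θ1, θ2, θ3, t0, t1, t2, t3, rfl⟩ := h
  exact ⟨θ1, θ2, θ3, θ0, t1, t2, t3, t0, by abel⟩

/-- Four linearly dependent vectors of the unit ball can be regrouped into three. -/
theorem regroup_of_dep (p : Fin 4 → E) (hp : ∀ i, ‖p i‖ ≤ 1) (hdep : ¬ LinearIndependent ℝ p) :
    ∃ a b c : E, ‖a‖ ≤ 1 ∧ ‖b‖ ≤ 1 ∧ ‖c‖ ≤ 1 ∧ ∀ η0 η1 η2 : ℝ, IsS η0 → IsS η1 → IsS η2 →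
      R4 (η0 • a + η1 • b + η2 • c) (p 0) (p 1) (p 2) (p 3) := by
  rw [Fintype.not_linearIndependent_iff] at hdep
  obtain ⟨g, hsum, j, hj⟩ := hdep
  obtain ⟨i0, -, hmax⟩ := Finset.exists_max_image Finset.univ (fun i => |g i|) ⟨0, Finset.mem_univ _⟩
  have hmax' : ∀ i, |g i| ≤ |g i0| := fun i => hmax i (Finset.mem_univ _)
  have hi0 : g i0 ≠ 0 := by
    intro h0
    have := hmax' j
    rw [h0, abs_zero] at this
    exact hj (abs_eq_zero.1 (le_antisymm this (abs_nonneg _)))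
  rw [Fin.sum_univ_four] at hsum
  have hcase : i0 = 0 ∨ i0 = 1 ∨ i0 = 2 ∨ i0 = 3 := by
    fin_cases i0 <;> simp
  rcases hcase with rfl | rfl | rfl | rfl
  · obtain ⟨a, b, c, ha, hb, hc, H⟩ := regroup_dep (p 0) (p 1) (p 2) (p 3) _ _ _ (hp 1) (hp 2) (hp 3)
      (abs_div_le_one (hmax' 1) hi0) (abs_div_le_one (hmax' 2) hi0) (abs_div_le_one (hmax' 3) hi0)
      (solve_dep _ _ _ _ _ _ _ _ hsum hi0)
    exact ⟨a, b, c, ha, hb, hc, H⟩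
  · obtain ⟨a, b, c, ha, hb, hc, H⟩ := regroup_dep (p 1) (p 0) (p 2) (p 3) _ _ _ (hp 0) (hp 2) (hp 3)
      (abs_div_le_one (hmax' 0) hi0) (abs_div_le_one (hmax' 2) hi0) (abs_div_le_one (hmax' 3) hi0)
      (solve_dep _ _ _ _ _ _ _ _ (by rw [← hsum]; abel) hi0)
    exact ⟨a, b, c, ha, hb, hc, fun η0 η1 η2 e0 e1 e2 => (H η0 η1 η2 e0 e1 e2).perm1⟩
  · obtain ⟨a, b, c, ha, hb, hc, H⟩ := regroup_dep (p 2) (p 0) (p 1) (p 3) _ _ _ (hp 0) (hp 1) (hp 3)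
      (abs_div_le_one (hmax' 0) hi0) (abs_div_le_one (hmax' 1) hi0) (abs_div_le_one (hmax' 3) hi0)
      (solve_dep _ _ _ _ _ _ _ _ (by rw [← hsum]; abel) hi0)
    exact ⟨a, b, c, ha, hb, hc, fun η0 η1 η2 e0 e1 e2 => (H η0 η1 η2 e0 e1 e2).perm2⟩
  · obtain ⟨a, b, c, ha, hb, hc, H⟩ := regroup_dep (p 3) (p 0) (p 1) (p 2) _ _ _ (hp 0) (hp 1) (hp 2)
      (abs_div_le_one (hmax' 0) hi0) (abs_div_le_one (hmax' 1) hi0) (abs_div_le_one (hmax' 2) hi0)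
      (solve_dep _ _ _ _ _ _ _ _ (by rw [← hsum]; abel) hi0)
    exact ⟨a, b, c, ha, hb, hc, fun η0 η1 η2 e0 e1 e2 => (H η0 η1 η2 e0 e1 e2).perm3⟩

def R3 (x a b c : E) : Prop :=
  ∃ θ0 θ1 θ2 : ℝ, IsS θ0 ∧ IsS θ1 ∧ IsS θ2 ∧ x = θ0 • a + θ1 • b + θ2 • c

theorem isS_sq {η : ℝ} (h : IsS η) : η ^ 2 = 1 := by
  rcases h with rfl | rfl <;> norm_num

theorem norm_two_le {a b : E} (ha : ‖a‖ ≤ 1) (hb : ‖b‖ ≤ 1) {η0 η1 : ℝ} (e0 : IsS η0) (e1 : IsS η1) :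
    ‖η0 • a + η1 • b‖ ^ 2 ≤ 6 := by
  have h : ‖η0 • a + η1 • b‖ ≤ 2 := by
    calc ‖η0 • a + η1 • b‖ ≤ ‖η0 • a‖ + ‖η1 • b‖ := norm_add_le _ _
      _ = ‖a‖ + ‖b‖ := by rw [norm_isS_smul e0, norm_isS_smul e1]
      _ ≤ 2 := by linarith
  nlinarith [norm_nonneg (η0 • a + η1 • b)]

/-- merging a pair with large inner product -/
theorem merge_pair (a b : E) (ha : ‖a‖ ≤ 1) (hb : ‖b‖ ≤ 1) (σ : ℝ) (hσ : IsS σ)
    (h : 1 / 2 < σ * inner ℝ a b) : ‖a + (-σ) • b‖ ≤ 1 := by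
  have h2 : ‖a + (-σ) • b‖ ^ 2 ≤ 1 := by
    rw [norm_add_sq_real, inner_smul_right, norm_isS_smul hσ.neg]
    nlinarith [norm_nonneg a, norm_nonneg b]
  nlinarith [norm_nonneg (a + (-σ) • b)]

/-- Second stage: three groups in the unit ball can be regrouped so that all signed sums have
squared norm at most six. -/
theorem second_stage3 (a b c : E) (ha : ‖a‖ ≤ 1) (hb : ‖b‖ ≤ 1) (hc : ‖c‖ ≤ 1) :
    ∃ a' b' c' : E, ‖a'‖ ≤ 1 ∧ ‖b'‖ ≤ 1 ∧ ‖c'‖ ≤ 1 ∧ ∀ η0 η1 η2 : ℝ, IsS η0 → IsS η1 → IsS η2 →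
      ‖η0 • a' + η1 • b' + η2 • c'‖ ^ 2 ≤ 6 ∧ R3 (η0 • a' + η1 • b' + η2 • c') a b c := by
  by_cases hall : ∀ η0 η1 η2 : ℝ, IsS η0 → IsS η1 → IsS η2 → ‖η0 • a + η1 • b + η2 • c‖ ^ 2 ≤ 6
  · exact ⟨a, b, c, ha, hb, hc, fun η0 η1 η2 e0 e1 e2 =>
      ⟨hall η0 η1 η2 e0 e1 e2, η0, η1, η2, e0, e1, e2, rfl⟩⟩
  · simp only [not_forall, not_le] at hall
    obtain ⟨s0, s1, s2, f0, f1, f2, hbig⟩ := hall
    rw [norm_sq_comb3, isS_sq f0, isS_sq f1, isS_sq f2] at hbig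
    have a2 : ‖a‖ ^ 2 ≤ 1 := by nlinarith [norm_nonneg a]
    have b2 : ‖b‖ ^ 2 ≤ 1 := by nlinarith [norm_nonneg b]
    have c2 : ‖c‖ ^ 2 ≤ 1 := by nlinarith [norm_nonneg c]
    have hcases : 1 / 2 < (s0 * s1) * inner ℝ a b ∨ 1 / 2 < (s0 * s2) * inner ℝ a c ∨
        1 / 2 < (s1 * s2) * inner ℝ b c := by
      by_contra hno
      simp only [not_or, not_lt] at hno
      obtain ⟨q1, q2, q3⟩ := hno
      nlinarith
    rcases hcases with h | h | h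
    · have hm := merge_pair a b ha hb _ (f0.mul f1) h
      refine ⟨_, c, 0, hm, hc, by simp, ?_⟩
      intro η0 η1 η2 e0 e1 e2
      refine ⟨by simpa using norm_two_le hm hc e0 e1, η0, η0 * (-(s0 * s1)), η1, e0,
        e0.mul (f0.mul f1).neg, e1, ?_⟩
      module
    · have hm := merge_pair a c ha hc _ (f0.mul f2) h
      refine ⟨_, b, 0, hm, hb, by simp, ?_⟩
      intro η0 η1 η2 e0 e1 e2
      refine ⟨by simpa using norm_two_le hm hb e0 e1, η0, η1, η0 * (-(s0 * s2)), e0, e1,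
        e0.mul (f0.mul f2).neg, ?_⟩
      module
    · have hm := merge_pair b c hb hc _ (f1.mul f2) h
      refine ⟨_, a, 0, hm, ha, by simp, ?_⟩
      intro η0 η1 η2 e0 e1 e2
      refine ⟨by simpa using norm_two_le hm ha e0 e1, η1, η0, η0 * (-(s1 * s2)), e1, e0,
        e0.mul (f1.mul f2).neg, ?_⟩
      module

end

abbrev E3 := EuclideanSpace ℝ (Fin 3)

theorem not_linIndep_four (p : Fin 4 → E3) : ¬ LinearIndependent ℝ p := by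
  intro h
  have := h.fintype_card_le_finrank
  simp at this

theorem step3 (g : Fin 3 → E3) (u : E3) (hg : ∀ i, ‖g i‖ ≤ 1) (hu : ‖u‖ ≤ 1) :
    ∃ g' : Fin 3 → E3, (∀ i, ‖g' i‖ ≤ 1) ∧ ∀ η : Fin 3 → ℝ, (∀ i, IsS (η i)) →
      ‖∑ i, η i • g' i‖ ^ 2 ≤ 6 ∧ ∃ (θ : Fin 3 → ℝ) (ρ : ℝ), (∀ i, IsS (θ i)) ∧ IsS ρ ∧
        ∑ i, η i • g' i = ∑ i, θ i • g i + ρ • u := by
  obtain ⟨a, b, c, ha, hb, hc, H⟩ := regroup_of_dep ![g 0, g 1, g 2, u]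
    (by intro i; fin_cases i <;> simp [hg, hu]) (not_linIndep_four _)
  obtain ⟨a', b', c', ha', hb', hc', H'⟩ := second_stage3 a b c ha hb hc
  refine ⟨![a', b', c'], by intro i; fin_cases i <;> simp [ha', hb', hc'], ?_⟩
  intro η hη
  obtain ⟨hn, φ0, φ1, φ2, f0, f1, f2, heq⟩ := H' (η 0) (η 1) (η 2) (hη 0) (hη 1) (hη 2)
  obtain ⟨θ0, θ1, θ2, θ3, t0, t1, t2, t3, heq2⟩ := H φ0 φ1 φ2 f0 f1 f2
  have hs : ∑ i, η i • (![a', b', c'] : Fin 3 → E3) i = η 0 • a' + η 1 • b' + η 2 • c' := by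
    simp [Fin.sum_univ_three]
  rw [hs]
  refine ⟨hn, ![θ0, θ1, θ2], θ3, by intro i; fin_cases i <;> simp [t0, t1, t2], t3, ?_⟩
  rw [heq, heq2]
  simp [Fin.sum_univ_three]

theorem upper3 (N : ℕ) (v : Fin N → E3) (hv : ∀ i, ‖v i‖ ≤ 1) :
    ∃ ε : Fin N → ℝ, (∀ i, ε i = 1 ∨ ε i = -1) ∧
      ∀ k : Fin (N + 1), ‖∑ i ∈ Finset.univ.filter (fun i : Fin N => i.val < k.val), ε i • v i‖
        ≤ Real.sqrt 6 := by
  set v' : ℕ → E3 := fun j => if h : j < N then v ⟨j, h⟩ else 0 with hv'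
  have hv'' : ∀ j, ‖v' j‖ ≤ 1 := by
    intro j
    simp only [hv']
    split_ifs with h
    · exact hv _
    · simp
  obtain ⟨g, _, hg⟩ := balance_of_step (m := 3) (T := 6) (by norm_num) step3 v' hv'' N
  obtain ⟨ε, hε, hgood, _⟩ := hg (fun _ => 1) (fun _ => Or.inl rfl)
  refine ⟨fun i => ε i.val, fun i => hε i.val, ?_⟩
  intro k
  have hk : k.val ≤ N := Nat.le_of_lt_succ k.isLt
  have hsum : ∑ i ∈ Finset.univ.filter (fun i : Fin N => i.val < k.val), ε i.val • v i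
      = ∑ j ∈ Finset.range k.val, ε j • v' j := by
    rw [← sum_fin_filter_eq N k.val hk (fun j => ε j • v' j)]
    apply Finset.sum_congr rfl
    intro i _
    simp [hv']
  rw [hsum]
  exact Real.le_sqrt_of_sq_le (hgood k.val hk)

theorem sigma_three_le : sigma 3 ≤ ENNReal.ofReal (Real.sqrt 6) :=
  sigma_le_of_balancing upper3

end Vale.Agent.Lib.P262
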